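import Vale.Agent.P136.Statement

open scoped ContDiff

namespace Vale.Agent.P136S

open Vale.Agent.P136.Elasticity

/-- The class `C^∞(closure Ω)`, described without any extension beyond the closure: `f` is `C^∞`
in `Ω`, continuous on the closure of `Ω`, and each of its derivatives is bounded in `Ω`. -/
def SmoothUpTo (Ω : Set E3) (f : E3 → ℝ) : Prop :=
  ContDiffOn ℝ ∞ f Ω ∧ ContinuousOn f (closure Ω) ∧
    ∀ k : ℕ, ∃ C : ℝ, ∀ x ∈ Ω, ‖iteratedFDeriv ℝ k f x‖ ≤ C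

/-- Admissible pairs: both moduli in `C^∞(closure Ω)`, with `μ > 0` and `3 λ + 2 μ > 0` on the
closure of `Ω`. -/
def AdmissibleUpTo (Ω : Set E3) (lam mu : E3 → ℝ) : Prop :=
  SmoothUpTo Ω lam ∧ SmoothUpTo Ω mu ∧ ∀ x ∈ closure Ω, 0 < mu x ∧ 0 < 3 * lam x + 2 * mu x

end Vale.Agent.P136S
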