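import Vale.Agent.P136S.Fin
import Mathlib.MeasureTheory.Function.LpSpace.ContinuousCompMeasurePreserving

/-!
# Density of smooth functions in the Sobolev space of a smooth domain
-/

open Set Filter Topology MeasureTheory Metric
open scoped ContDiff Manifold Convolution

namespace Vale.Agent.P136S

open Vale.Agent.P136

variable {Ω : Set E3} {a b : ℕ → E3 → ℝ} {h w d θ : E3 → ℝ}

/-- convergence to zero in `L²(Ω)` -/
def Tz (Ω : Set E3) (a : ℕ → E3 → ℝ) : Prop :=
  (∀ n, MemLp (a n) 2 (volume.restrict Ω)) ∧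
    Tendsto (fun n => ∫ x in Ω, a n x ^ 2) atTop (𝓝 0)

theorem Tz.add (ha : Tz Ω a) (hb : Tz Ω b) : Tz Ω fun n x => a n x + b n x := by
  refine ⟨fun n => (ha.1 n).add (hb.1 n), squeeze_zero
    (fun n => integral_nonneg fun _ => sq_nonneg _) (fun n => ?_)
    (by simpa using (ha.2.const_mul 2).add (hb.2.const_mul 2))⟩
  have h1 := BD.Rough.sq_int' (ha.1 n)
  have h2 := BD.Rough.sq_int' (hb.1 n)
  rw [← integral_const_mul, ← integral_const_mul, ← integral_add (h1.const_mul 2) (h2.const_mul 2)]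
  exact integral_mono (BD.Rough.sq_int' ((ha.1 n).add (hb.1 n)))
    ((h1.const_mul 2).add (h2.const_mul 2)) fun x => by nlinarith [sq_nonneg (a n x - b n x)]

theorem Tz.sum {ι : Type*} {c : ι → ℕ → E3 → ℝ} (hc : ∀ k, Tz Ω (c k)) (s : Finset ι) :
    Tz Ω fun n x => ∑ k ∈ s, c k n x := by
  classical
  induction s using Finset.induction_on with
  | empty => exact ⟨fun _ => by simp, by simp⟩
  | insert k s hk ih => simpa only [Finset.sum_insert hk] using (hc k).add ih

theorem Tz.mul (ho : IsOpen Ω) (hb : Bornology.IsBounded Ω) (hθ : Continuous θ) (ha : Tz Ω a) :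
    Tz Ω fun n x => θ x * a n x := by
  obtain ⟨M, h0, hM⟩ := BD.coef_bdd hb hθ
  have h1 : ∀ n, MemLp (fun x => θ x * a n x) 2 (volume.restrict Ω) := fun n =>
    (ha.1 n).of_le_mul (c := M) (hθ.aestronglyMeasurable.mul (ha.1 n).1)
      ((ae_restrict_mem ho.measurableSet).mono fun x hx => by
        rw [norm_mul]
        exact mul_le_mul_of_nonneg_right (hM x (subset_closure hx)) (norm_nonneg _))
  refine ⟨h1, squeeze_zero (fun n => integral_nonneg fun _ => sq_nonneg _) (fun n => ?_)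
    (by simpa using ha.2.const_mul (M ^ 2))⟩
  rw [← integral_const_mul]
  refine setIntegral_mono_on (BD.Rough.sq_int' (h1 n)) ((BD.Rough.sq_int' (ha.1 n)).const_mul _)
    ho.measurableSet fun x hx => ?_
  rw [mul_pow]
  exact mul_le_mul_of_nonneg_right (sq_le_sq' (abs_le.1 (hM x (subset_closure hx))).1
    (abs_le.1 (hM x (subset_closure hx))).2) (sq_nonneg _)

/-- shifted mollification of the extension by zero -/
noncomputable def sm (Ω : Set E3) (v : E3) (n : ℕ) (h : E3 → ℝ) (x : E3) : ℝ :=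
  moll n (Ω.indicator h) (x - (1 / ((n : ℝ) + 1)) • v)

theorem sm_tz (ho : IsOpen Ω) (hh : MemLp h 2 (volume.restrict Ω)) (v : E3) :
    Tz Ω fun n x => h x - sm Ω v n h x := by
  have hi := (memLp_indicator_iff_restrict ho.measurableSet).2 hh
  let G : C(ℝ × E3, E3) := ⟨fun z => z.2 - z.1 • v, by fun_prop⟩
  have hm : ∀ t, MeasurePreserving (G.curry t) volume volume := fun t =>
    measurePreserving_sub_right volume (t • v)
  have h1 := (Lp.tendsto_Lp_iff_tendsto_eLpNorm'' (fun n => moll n (Ω.indicator h))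
    (fun n => moll_memLp n hi) _ hi).2 (moll_tendsto hi)
  have h2 := h1.compMeasurePreservingLp ((G.curry.continuous.tendsto 0).comp
    tendsto_one_div_add_atTop_nhds_zero_nat) (fun _ => hm _) (hm 0) (by simp)
  simp only [Lp.toLp_compMeasurePreserving] at h2
  have h3 := (Lp.tendsto_Lp_iff_tendsto_eLpNorm'' _ _ _ _).1 h2
  have h4 : ∀ n, MemLp (sm Ω v n h) 2 := fun n =>
    (moll_memLp n hi).comp_measurePreserving (hm _)
  have h5 := N2_tendsto (a := fun n x => sm Ω v n h x - Ω.indicator h x)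
    (fun n => (h4 n).sub hi) (h3.congr fun n => congrArg (eLpNorm · 2 volume) (by
      funext x
      simp [G, sm]))
  refine ⟨fun n => hh.sub ((h4 n).restrict Ω), squeeze_zero
    (fun n => integral_nonneg fun _ => sq_nonneg _) (fun n => ?_) h5⟩
  refine (setIntegral_congr_fun ho.measurableSet fun x hx => ?_).trans_le
    (setIntegral_le_integral (s := Ω) (memLp_sq_int ((h4 n).sub hi))
      (Eventually.of_forall fun _ => sq_nonneg _))
  simp only [indicator_of_mem hx]
  ring

theorem sm_smooth (ho : IsOpen Ω) (hh : MemLp h 2 (volume.restrict Ω)) (v : E3) (n : ℕ) :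
    ContDiff ℝ ∞ (sm Ω v n h) :=
  (moll_contDiff n (((memLp_indicator_iff_restrict ho.measurableSet).2 hh).locallyIntegrable
    (by norm_num))).comp (contDiff_id.sub contDiff_const)

theorem sm_pd (ho : IsOpen Ω) (hw : MemLp w 2 (volume.restrict Ω)) {i : Fin 3}
    (hd : ∀ φ, IsTest Ω φ → ∫ x in Ω, w x * pd i φ x = -∫ x in Ω, d x * φ x) {v x : E3} {n : ℕ}
    (hx : closedBall (x - (1 / ((n : ℝ) + 1)) • v) (1 / ((n : ℝ) + 1)) ⊆ Ω) :
    pd i (sm Ω v n w) x = sm Ω v n d x := by
  have hf := ((memLp_indicator_iff_restrict ho.measurableSet).2 hw).locallyIntegrable (by norm_num)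
  unfold pd sm
  rw [fderiv_comp_sub]
  generalize x - (1 / ((n : ℝ) + 1)) • v = x at hx
  have h1 := (ker_cs n).hasFDerivAt_convolution_right (ContinuousLinearMap.mul ℝ ℝ) hf
    ((ker_contDiff n).of_le (by norm_cast)) x (μ := volume)
  rw [← moll_eq_conv'] at h1
  rw [h1.fderiv, convolution_precompR_apply _ hf ((ker_cs n).fderiv ℝ)
    (((ker_contDiff n).of_le (by norm_cast) : ContDiff ℝ 1 (ker n)).continuous_fderiv
      (by norm_num)), convolution_def]
  have h2 := hd (fun y => ker n (x - y)) ⟨ker_sub_contDiff n x, ker_sub_cs n x,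
    (closure_minimal (fun y hy => by
      by_contra h
      rw [mem_closedBall, dist_eq_norm, not_le, norm_sub_rev] at h
      exact hy (ker_zero h)) isClosed_closedBall).trans hx⟩
  have h3 : ∀ y, pd i (fun y => ker n (x - y)) y = - fderiv ℝ (ker n) (x - y) (bv i) := by
    intro y
    have hs := (((ker_contDiff n).differentiable (by simp)) (x - y)).hasFDerivAt.comp y
      ((hasFDerivAt_id y).const_sub x)
    show fderiv ℝ (ker n ∘ HSub.hSub x) y (bv i) = _
    rw [hs.fderiv]
    simp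
  simp_rw [h3] at h2
  simp only [mul_neg, integral_neg, neg_inj] at h2
  have h4 : ∀ a b : E3 → ℝ, ∫ y, Ω.indicator a y * b y = ∫ y in Ω, a y * b y := fun a b => by
    rw [← integral_indicator ho.measurableSet]
    exact congrArg _ (funext fun y => (indicator_mul_left Ω a b).symm)
  simp only [ContinuousLinearMap.mul_apply', moll, mul_comm (ker n _), h4, h2]

theorem cone (hΩ : Elasticity.SmoothDomain Ω) (p : E3) : ∃ V, IsOpen V ∧ p ∈ V ∧ ∃ v : E3,
    ∀ᶠ n : ℕ in atTop, ∀ z ∈ V, ∀ x ∈ Ω, dist x z ≤ 1 / ((n : ℝ) + 1) * (‖v‖ + 2) →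
      closedBall (x - (1 / ((n : ℝ) + 1)) • v) (2 * (1 / ((n : ℝ) + 1))) ⊆ Ω := by
  have ho := hΩ.isOpen
  have ht := tendsto_one_div_add_atTop_nhds_zero_nat (𝕜 := ℝ)
  by_cases h1 : p ∈ Ω
  · obtain ⟨r, hr, h⟩ := isOpen_iff.1 ho p h1
    refine ⟨_, isOpen_ball, mem_ball_self (half_pos hr), 0,
      (ht.eventually_lt_const (show 0 < r / 8 by positivity)).mono fun n hn z hz x _ hx => ?_⟩
    rw [smul_zero, sub_zero]
    rw [norm_zero] at hx
    exact (closedBall_subset_ball' (by linarith [mem_ball.1 hz, dist_triangle x z p])).trans h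
  by_cases h2 : p ∈ closure Ω
  swap
  · obtain ⟨r, hr, h⟩ := isOpen_iff.1 isClosed_closure.isOpen_compl p h2
    refine ⟨_, isOpen_ball, mem_ball_self (half_pos hr), 0,
      (ht.eventually_lt_const (show 0 < r / 8 by positivity)).mono fun n hn z hz x k hx => ?_⟩
    rw [norm_zero] at hx
    exact (h (mem_ball.2 (by linarith [mem_ball.1 hz, dist_triangle x z p]))
      (subset_closure k)).elim
  obtain ⟨U, hU, ρ, hρ, ⟨i, hi⟩, hy⟩ := hΩ.smooth_boundary p ⟨h2, fun h => h1 (interior_subset h)⟩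
  replace hρ : ContDiff ℝ ∞ ρ := hρ
  obtain ⟨v, hv⟩ : ∃ v, fderiv ℝ ρ p v = 2 * ‖fderiv ℝ ρ p‖ + 1 :=
    ⟨((2 * ‖fderiv ℝ ρ p‖ + 1) / Elasticity.pd i ρ p) • EuclideanSpace.single i 1, by
      rw [map_smul]
      exact div_mul_cancel₀ _ hi⟩
  have hv0 : 0 < ‖v‖ + 2 := by positivity
  obtain ⟨r, hr, hK⟩ := nhds_basis_closedBall.mem_iff.1 (inter_mem hU
    ((hρ.continuous_fderiv (by simp)).continuousAt.eventually
      (closedBall_mem_nhds _ (one_div_pos.2 hv0))))
  refine ⟨_, isOpen_ball, mem_ball_self (half_pos hr), v, (ht.eventually_lt_const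
    (div_pos (half_pos (half_pos hr)) hv0)).mono fun n hn z hz x h3 hx y h4 => ?_⟩
  have h0 : 0 < 1 / ((n : ℝ) + 1) := by positivity
  generalize 1 / ((n : ℝ) + 1) = t at *
  rw [mem_closedBall, dist_eq_norm] at h4
  rw [lt_div_iff₀ hv0] at hn
  have h5 : y - x = y - (x - t • v) - t • v := by abel
  have h6 : ‖y - x‖ ≤ t * (‖v‖ + 2) := by
    rw [h5]
    refine (norm_sub_le _ _).trans ?_
    rw [norm_smul, Real.norm_of_nonneg h0.le]
    linarith
  have hz' := (dist_triangle x z p).trans (add_le_add hx (mem_ball.1 hz).le)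
  have hx' : x ∈ closedBall p r := mem_closedBall.2 (by linarith)
  have hy' : y ∈ closedBall p r := by
    have := dist_triangle y x p
    rw [dist_eq_norm y x] at this
    exact mem_closedBall.2 (by linarith)
  have h7 := (convex_closedBall p r).norm_image_sub_le_of_norm_fderiv_le' (𝕜 := ℝ) (f := ρ)
    (φ := fderiv ℝ ρ p) (C := 1 / (‖v‖ + 2)) (fun y _ => hρ.differentiable (by simp) y)
    (fun y hy => by simpa [dist_eq_norm] using (hK hy).2) hx' hy'
  have h8 : 1 / (‖v‖ + 2) * ‖y - x‖ ≤ t := by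
    rw [one_div, inv_mul_le_iff₀' hv0]
    exact h6
  have h9 := (le_abs_self _).trans ((fderiv ℝ ρ p).le_opNorm_of_le h4)
  rw [h5, map_sub, map_smul, hv, ← h5, smul_eq_mul] at h7
  refine (hy y (hK hy').1).2 ?_
  nlinarith [(abs_le.1 (h7.trans h8)).2, (hy x (hK hx').1).1 h3]

theorem approx (ho : IsOpen Ω) (hb : Bornology.IsBounded Ω) (hw : MemLp w 2 (volume.restrict Ω))
    {d : Fin 3 → E3 → ℝ} (hd : ∀ i, MemLp (d i) 2 (volume.restrict Ω)) {V : E3 → Set E3}
    (V1 : ∀ p, IsOpen (V p)) (V2 : ∀ p, p ∈ V p) (v : E3 → E3) (S : Set E3)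
    (hv : ∀ p, ∀ᶠ n in atTop, ∀ x ∈ V p, (x ∈ tsupport (sm Ω (v p) n w) → x ∈ S) ∧
      (x ∈ Ω → ∀ i, pd i (sm Ω (v p) n w) x = sm Ω (v p) n (d i) x)) :
    ∃ φ : ℕ → E3 → ℝ, (∀ n, ContDiff ℝ ∞ (φ n)) ∧ (∀ᶠ n in atTop, tsupport (φ n) ⊆ S) ∧
      Tendsto (fun n => ∫ x in Ω, (w x - φ n x) ^ 2) atTop (𝓝 0) ∧
      ∀ i, Tendsto (fun n => ∫ x in Ω, (d i x - pd i (φ n) x) ^ 2) atTop (𝓝 0) := by
  obtain ⟨T, hT⟩ := hb.isCompact_closure.elim_finite_subcover V V1
    fun x _ => mem_iUnion.2 ⟨x, V2 x⟩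
  obtain ⟨f, hf⟩ := SmoothPartitionOfUnity.exists_isSubordinate 𝓘(ℝ, E3) isClosed_closure
    (fun k : T => V k) (fun k => V1 k) (hT.trans (iUnion₂_subset fun k hk =>
      subset_iUnion (fun k : T => V k) ⟨k, hk⟩))
  have f1 : ∀ k, ContDiff ℝ ∞ (f k) := fun k => (f k).contMDiff.contDiff
  have f2 : ∀ x ∈ Ω, ∑ k, f k x = 1 := fun x hx =>
    (finsum_eq_sum_of_fintype _).symm.trans (f.sum_eq_one (subset_closure hx))
  have df : ∀ {g : E3 → ℝ}, ContDiff ℝ ∞ g → ∀ x, HasFDerivAt g (fderiv ℝ g x) x :=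
    fun hg x => (hg.differentiable (by simp) x).hasFDerivAt
  have f3 : ∀ i, ∀ x ∈ Ω, ∑ k, pd i (f k) x = 0 := fun i x hx => by
    have h1 := (HasFDerivAt.fun_sum (u := Finset.univ) fun k _ => df (f1 k) x).unique
      ((hasFDerivAt_const (1 : ℝ) x).congr_of_eventuallyEq (mem_of_superset (ho.mem_nhds hx) f2))
    simpa [pd] using congrArg (· (bv i)) h1
  refine ⟨fun n x => ∑ k, f k x * sm Ω (v k) n w x, fun n => ContDiff.sum fun k _ =>
    (f1 k).mul (sm_smooth ho hw _ n), ?_, ?_, fun i => ?_⟩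
  · filter_upwards [eventually_all.2 fun k : T => hv k] with n hn x hx
    by_contra h0
    refine notMem_tsupport_iff_eventuallyEq.2 ?_ hx
    have h1 : ∀ k : T, ∀ᶠ y in 𝓝 x, f k y * sm Ω (v k) n w y = 0 := fun k =>
      notMem_tsupport_iff_eventuallyEq.1 fun h => h0 ((hn k x (hf k
        (tsupport_mul_subset_left h))).1 (tsupport_mul_subset_right h))
    filter_upwards [eventually_all.2 h1] with y hy
    exact Finset.sum_eq_zero fun k _ => hy k
  · refine (Tz.sum (fun k : T => (sm_tz ho hw (v k)).mul ho hb (f1 k).continuous)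
      Finset.univ).2.congr fun n => setIntegral_congr_fun ho.measurableSet fun x hx => ?_
    simp only [mul_sub, Finset.sum_sub_distrib, ← Finset.sum_mul, f2 x hx, one_mul]
  · refine (Tz.sum (fun k : T => ((sm_tz ho (hd i) (v k)).mul ho hb (f1 k).continuous).add
      ((sm_tz ho hw (v k)).mul ho hb (pd_contDiff_infty (f1 k) i).continuous))
      Finset.univ).2.congr' ?_
    filter_upwards [eventually_all.2 fun k : T => hv k] with n hn
    refine setIntegral_congr_fun ho.measurableSet fun x hx => ?_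
    have h1 := congrArg (· (bv i)) (HasFDerivAt.fun_sum (u := Finset.univ) fun k _ =>
      (df (f1 k) x).fun_mul (df (sm_smooth ho hw (v k) n) x)).fderiv
    have h2 : ∀ k : T, f k x * pd i (sm Ω (v k) n w) x = f k x * sm Ω (v k) n (d i) x :=
      fun k => by
        by_cases h : f k x = 0
        · rw [h, zero_mul, zero_mul]
        · rw [(hn k x (hf k (subset_tsupport _ h))).2 hx]
    have h3 : pd i (fun x => ∑ k, f k x * sm Ω (v k) n w x) x =
        ∑ k, (f k x * sm Ω (v k) n (d i) x + pd i (f k) x * sm Ω (v k) n w x) := by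
      refine h1.trans ?_
      rw [sum_apply]
      refine Finset.sum_congr rfl fun k _ => ?_
      rw [← h2 k]
      simp [pd, mul_comm]
    simp only [h3, mul_sub, Finset.sum_add_distrib, Finset.sum_sub_distrib, ← Finset.sum_mul,
      f2 x hx, f3 i x hx]
    ring

/-- Smooth functions on the whole space are dense in `H¹(Ω)`. -/
theorem dense_scalar (hΩ : Elasticity.SmoothDomain Ω) (hw : MemLp w 2 (volume.restrict Ω))
    {d : Fin 3 → E3 → ℝ} (hd : ∀ i, MemLp (d i) 2 (volume.restrict Ω))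
    (hk : ∀ i φ, IsTest Ω φ → ∫ x in Ω, w x * pd i φ x = -∫ x in Ω, d i x * φ x) :
    ∃ φ : ℕ → E3 → ℝ, (∀ n, ContDiff ℝ ∞ (φ n)) ∧
      ∀ i, Tendsto (fun n => ∫ x in Ω, (d i x - pd i (φ n) x) ^ 2) atTop (𝓝 0) := by
  choose V V1 V2 v hv using cone hΩ
  obtain ⟨φ, h1, -, -, h2⟩ := approx hΩ.isOpen hΩ.isBounded hw hd V1 V2 v univ fun p =>
    (hv p).mono fun n hn x hx => ⟨fun _ => trivial, fun h i => sm_pd hΩ.isOpen hw (hk i)
      ((closedBall_subset_closedBall (le_mul_of_one_le_left (by positivity) one_le_two)).trans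
        (hn x hx x h (by rw [dist_self]; positivity)))⟩
  exact ⟨φ, h1, h2⟩

/-- If the extension by zero is weakly differentiable, the function is a limit of tests. -/
theorem dense_zero (hΩ : Elasticity.SmoothDomain Ω) (hw : MemLp w 2 (volume.restrict Ω))
    {d : Fin 3 → E3 → ℝ} (hd : ∀ i, MemLp (d i) 2 (volume.restrict Ω))
    (hk : ∀ i, WD i (Ω.indicator w) (Ω.indicator (d i))) :
    ∃ φ : ℕ → E3 → ℝ, (∀ᶠ n in atTop, IsTest Ω (φ n)) ∧
      Tendsto (fun n => ∫ x in Ω, (w x - φ n x) ^ 2) atTop (𝓝 0) ∧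
      ∀ i, Tendsto (fun n => ∫ x in Ω, (d i x - pd i (φ n) x) ^ 2) atTop (𝓝 0) := by
  choose V V1 V2 v hv using cone hΩ
  have hf := ((memLp_indicator_iff_restrict hΩ.isOpen.measurableSet).2 hw).locallyIntegrable
    (by norm_num)
  obtain ⟨φ, h1, h2, h3⟩ := approx hΩ.isOpen hΩ.isBounded hw hd V1 V2 (fun p => -v p) Ω fun p =>
    (hv p).mono fun n hn x hx => ⟨fun h => by
      have h0 : 0 < 1 / ((n : ℝ) + 1) := by positivity
      obtain ⟨z, hz, h4⟩ := Metric.mem_closure_iff.1 h _ h0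
      obtain ⟨y, hy⟩ : ∃ y, ker n (z - (1 / ((n : ℝ) + 1)) • -v p - y) * Ω.indicator w y ≠ 0 := by
        by_contra h5
        push Not at h5
        exact hz (by simp only [sm, moll, h5, integral_zero])
      have h5 := not_lt.1 fun k => left_ne_zero_of_mul hy (ker_zero k)
      have h6 := mem_of_indicator_ne_zero (right_ne_zero_of_mul hy)
      generalize 1 / ((n : ℝ) + 1) = t at *
      have h7 : dist x (y - t • v p) ≤ 2 * t := by
        have := dist_triangle x z (y - t • v p)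
        rw [dist_eq_norm z, show z - (y - t • v p) = z - t • -v p - y by module] at this
        linarith
      refine hn x hx y h6 ?_ h7
      have := dist_triangle y (y - t • v p) x
      rw [dist_eq_norm y (y - _), sub_sub_cancel, norm_smul, Real.norm_of_nonneg h0.le] at this
      linarith [dist_comm x (y - t • v p)], fun _ i => by
      unfold pd sm
      rw [fderiv_comp_sub]
      exact moll_pd n hf (hk i) _⟩
  exact ⟨φ, h2.mono fun n hn => ⟨h1 n, hΩ.isBounded.isCompact_closure.of_isClosed_subset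
    (isClosed_tsupport _) (hn.trans subset_closure), hn⟩, h3⟩

end Vale.Agent.P136S
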