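import Mathlib.Analysis.Calculus.SmoothSeries
import Mathlib.Analysis.Calculus.ContDiff.Bounds
import Mathlib.Analysis.Calculus.MeanValue
import Mathlib.Analysis.SpecificLimits.Basic

/-!
# Extension of smooth functions with bounded derivatives: finite differences
-/

open Set Filter Topology
open scoped ContDiff

noncomputable section

namespace Vale.Agent.P136S

variable {E : Type*} [NormedAddCommGroup E] [NormedSpace ℝ E] {H H' : Set E} {k : ℕ}
  {g a b : E → ℝ} {A C : ℝ} {v : E}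

/-- smooth on `H`, with the derivatives of order at most `k` bounded by `C` -/
structure B (H : Set E) (k : ℕ) (g : E → ℝ) (C : ℝ) : Prop where
  nn : 0 ≤ C
  sm : ∀ x ∈ H, ContDiffAt ℝ ∞ g x
  bd : ∀ i ≤ k, ∀ x ∈ H, ‖iteratedFDeriv ℝ i g x‖ ≤ C

theorem le_inf (i : ℕ) : (i : WithTop ℕ∞) ≤ ∞ := by exact_mod_cast le_top

theorem B.mono {k' : ℕ} (h : B H k g C) (hk : k' ≤ k) (hC : C ≤ A) (hH : H' ⊆ H) : B H' k' g A :=
  ⟨h.nn.trans hC, fun x hx => h.sm x (hH hx),
    fun i hi x hx => (h.bd i (hi.trans hk) x (hH hx)).trans hC⟩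

theorem B.add (h : B H k a A) (h' : B H k b C) : B H k (a + b) (A + C) :=
  ⟨add_nonneg h.nn h'.nn, fun x hx => (h.sm x hx).add (h'.sm x hx), fun i hi x hx => by
    rw [iteratedFDeriv_add_apply ((h.sm x hx).of_le (le_inf i)) ((h'.sm x hx).of_le (le_inf i))]
    exact norm_add_le_of_le (h.bd i hi x hx) (h'.bd i hi x hx)⟩

theorem B.neg (h : B H k a A) : B H k (-a) A :=
  ⟨h.nn, fun x hx => (h.sm x hx).neg, fun i hi x hx => by
    rw [iteratedFDeriv_neg_apply, norm_neg]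
    exact h.bd i hi x hx⟩

theorem B.mul (ho : IsOpen H) (h : B H k a A) (h' : B H k b C) :
    B H k (fun y => a y * b y) (2 ^ k * A * C) :=
  ⟨by have := h.nn; have := h'.nn; positivity, fun x hx => (h.sm x hx).mul (h'.sm x hx),
    fun i hi x hx => by
      have h1 := norm_iteratedFDerivWithin_mul_le (fun y hy => (h.sm y hy).contDiffWithinAt)
        (fun y hy => (h'.sm y hy).contDiffWithinAt) ho.uniqueDiffOn hx (le_inf i)
      simp only [iteratedFDerivWithin_of_isOpen _ ho hx] at h1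
      have := h.nn
      have := h'.nn
      calc _ ≤ ∑ j ∈ Finset.range (i + 1), (i.choose j : ℝ) * (A * C) :=
            h1.trans (Finset.sum_le_sum fun j hj => by
              rw [mul_assoc]
              gcongr
              · exact h.bd j (by have := Finset.mem_range.1 hj; omega) x hx
              · exact h'.bd _ (by omega) x hx)
        _ = 2 ^ i * A * C := by
            rw [← Finset.sum_mul, ← Nat.cast_sum, Nat.sum_range_choose, mul_assoc]
            norm_cast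
        _ ≤ _ := by gcongr; exact one_le_two⟩

theorem B.glue (h : B H' k g C) (h0 : ∀ x ∈ H, x ∉ H' → g =ᶠ[𝓝 x] fun _ => 0) : B H k g C :=
  ⟨h.nn, fun x hx => by
    by_cases k : x ∈ H'
    · exact h.sm x k
    · exact contDiffAt_const.congr_of_eventuallyEq (h0 x hx k), fun i hi x hx => by
    by_cases k : x ∈ H'
    · exact h.bd i hi x k
    · rw [((h0 x hx k).iteratedFDeriv ℝ i).eq_of_nhds]
      simpa using h.nn⟩

theorem B.of_forall (h1 : ∀ x ∈ H, ContDiffAt ℝ ∞ g x)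
    (h2 : ∀ i, ∃ C, ∀ x ∈ H, ‖iteratedFDeriv ℝ i g x‖ ≤ C) (k : ℕ) : ∃ C, B H k g C := by
  choose C hC using h2
  exact ⟨∑ i ∈ Finset.range (k + 1), |C i|, Finset.sum_nonneg fun _ _ => abs_nonneg _, h1,
    fun i hi x hx => ((hC i x hx).trans (le_abs_self _)).trans
      (Finset.single_le_sum (f := fun i => |C i|) (fun _ _ => abs_nonneg _)
        (Finset.mem_range.2 (by omega)))⟩

/-- the translation -/
def sh (v : E) : Module.End ℝ (E → ℝ) := LinearMap.funLeft ℝ ℝ fun x => x - v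

theorem B.sh (h : B H k g C) (hv : ∀ x ∈ H', x - v ∈ H) : B H' k (sh v g) C :=
  ⟨h.nn, fun x hx => ContDiffAt.comp (g := g) (f := fun x => x - v) x (h.sm _ (hv x hx))
      (contDiffAt_id.sub contDiffAt_const),
    fun i hi x hx => (congrArg norm (iteratedFDeriv_comp_sub (𝕜 := ℝ) (f := g) i v x)).trans_le
      (h.bd i hi _ (hv x hx))⟩

theorem B.diff (hv : ∀ x ∈ H, ∀ s ≥ (0 : ℝ), x - s • v ∈ H) (h : B H (k + 1) g C) :
    B H k ((1 - P136S.sh v) g) (‖v‖ * C) := by
  have h1 := h.sh (H' := H) (v := v) fun x hx => by simpa using hv x hx 1 zero_le_one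
  refine ⟨mul_nonneg (norm_nonneg _) h.nn, fun x hx => (h.sm x hx).sub (h1.sm x hx),
    fun i hi x hx => ?_⟩
  have hs : segment ℝ x (x - v) ⊆ H := by
    rw [segment_eq_image']
    rintro _ ⟨s, hs, rfl⟩
    simpa [sub_eq_add_neg] using hv x hx s hs.1
  have h2 := (convex_segment x (x - v)).norm_image_sub_le_of_norm_fderiv_le (𝕜 := ℝ)
    (f := iteratedFDeriv ℝ i g) (C := C)
    (fun y hy => ((h.sm y (hs hy)).iteratedFDeriv_right (m := 1) (le_inf (1 + i))).differentiableAt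
      one_ne_zero)
    (fun y hy => norm_fderiv_iteratedFDeriv.trans_le (h.bd _ (by omega) y (hs hy)))
    (right_mem_segment _ _ _) (left_mem_segment _ _ _)
  rw [sub_sub_cancel, mul_comm] at h2
  show ‖iteratedFDeriv ℝ i (g - P136S.sh v g) x‖ ≤ _
  rw [iteratedFDeriv_sub_apply ((h.sm x hx).of_le (le_inf i)) ((h1.sm x hx).of_le (le_inf i))]
  exact (congrArg (fun z => ‖iteratedFDeriv ℝ i g x - z‖)
    (iteratedFDeriv_comp_sub (𝕜 := ℝ) (f := g) i v x)).trans_le h2

theorem B.pow (hv : ∀ x ∈ H, ∀ s ≥ (0 : ℝ), x - s • v ∈ H) (m : ℕ) :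
    ∀ {k : ℕ}, B H (k + m) g C → B H k (((1 - P136S.sh v) ^ m) g) (‖v‖ ^ m * C) := by
  induction m with
  | zero => intro k h; simpa using h
  | succ m ih =>
    intro k h
    rw [pow_succ', pow_succ', mul_assoc]
    exact B.diff hv (ih (h.mono (by omega) le_rfl subset_rfl))

theorem exists_W (hv : ∀ x ∈ H, x - v ∈ H) (T : Module.End ℝ (E → ℝ))
    (hT : ∀ k g C, B H k g C → B H k (T g) C) (m : ℕ) :
    ∃ W : Module.End ℝ (E → ℝ), (1 + sh v * T) ^ m = 1 + sh v * W ∧
      ∀ k g C, B H k g C → B H k (W g) (3 ^ m * C) := by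
  induction m with
  | zero =>
    exact ⟨0, by simp, fun k g C h => ⟨by simpa using h.nn, fun _ _ => contDiffAt_const,
      fun i _ x _ => by simpa using h.nn⟩⟩
  | succ m ih =>
    obtain ⟨W, h1, h2⟩ := ih
    refine ⟨W * (1 + sh v * T) + T, by rw [pow_succ, h1]; noncomm_ring, fun k g C h => ?_⟩
    refine ((h2 k _ _ (h.add ((hT k g C h).sh hv))).add (hT k g C h)).mono le_rfl ?_ subset_rfl
    have := mul_le_mul_of_nonneg_right (one_le_pow₀ (n := m) (show (1 : ℝ) ≤ 3 by norm_num)) h.nn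
    rw [pow_succ]
    linarith

theorem step (hv : ∀ x ∈ H, ∀ s ≥ (0 : ℝ), x - s • v ∈ H) {m m' : ℕ} (hm : m ≤ m') (g : E → ℝ) :
    ∃ G, ((1 - sh (v + v)) ^ m) g - ((1 - sh v) ^ m') g = sh v G ∧
      ∀ k C, B H (k + m) g C → B H k G (2 * 3 ^ m' * (‖v‖ ^ m * C)) := by
  have h0 : ∀ x ∈ H, x - v ∈ H := fun x hx => by simpa using hv x hx 1 zero_le_one
  obtain ⟨d, rfl⟩ := Nat.exists_eq_add_of_le' hm
  obtain ⟨W, h1, h2⟩ := exists_W h0 1 (fun _ _ _ h => h) m
  obtain ⟨W', h3, h4⟩ := exists_W h0 (-1) (fun _ _ _ h => h.neg) d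
  rw [mul_one] at h1
  rw [show 1 + sh v * -1 = 1 - sh v by ext; simp [sub_eq_add_neg]] at h3
  have e : sh (v + v) = sh v * sh v := by
    ext g x
    simp [sh, sub_sub]
  refine ⟨W (((1 - sh v) ^ m) g) + -W' (((1 - sh v) ^ m) g), ?_, fun k C h => ?_⟩
  · rw [e, show 1 - sh v * sh v = (1 + sh v) * (1 - sh v) by ext; simp,
      Commute.mul_pow (by unfold Commute SemiconjBy; ext; simp; ring), pow_add, h1, h3]
    simp only [Module.End.mul_apply, LinearMap.add_apply, Module.End.one_apply, map_add, map_neg]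
    abel
  · have h5 := h.pow hv m
    refine ((h2 _ _ _ h5).add (h4 _ _ _ h5).neg).mono le_rfl ?_ subset_rfl
    have := h5.nn
    rw [two_mul, add_mul]
    gcongr <;> norm_num

theorem core (ho : IsOpen H) {e : E} (hv : ∀ x ∈ H, ∀ s ≥ (0 : ℝ), x - s • e ∈ H) (he : ‖e‖ ≤ 1)
    (hg : ∀ k, ∃ C, B H k g C) {χ : ℕ → E → ℝ}
    (hχ : ∀ k, ∃ K, ∀ j, B univ k (χ j) (K * (2 ^ (j + 1)) ^ k))
    (hs : ∀ j, ∀ x ∈ tsupport (χ j), x - ((1 / 2 : ℝ) ^ (j + 1)) • e ∈ H) :
    ∃ F, ContDiff ℝ ∞ F ∧ ∀ x ∈ H, (∀ j, χ j x = 1) → F x = g x := by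
  classical
  choose C hC using hg
  choose K hK using hχ
  let m : ℕ → ℕ := fun j => Nat.findGreatest (fun n => 3 ^ n * C (2 * n) ≤ 2 ^ j) j
  have m1 : ∀ j, m j ≤ m (j + 1) := fun j => Nat.findGreatest_mono
    (fun n (h : 3 ^ n * C (2 * n) ≤ 2 ^ j) => h.trans (pow_le_pow_right₀ one_le_two j.le_succ))
    j.le_succ
  have m2 : ∀ n, ∀ᶠ j in atTop, n ≤ m j := fun n => by
    filter_upwards [eventually_ge_atTop n, (tendsto_pow_atTop_atTop_of_one_lt
      (one_lt_two (α := ℝ))).eventually_ge_atTop (3 ^ n * C (2 * n))] with j h1 h2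
    exact Nat.le_findGreatest h1 h2
  have m3 : ∀ j, m j ≠ 0 → 3 ^ m j * C (2 * m j) ≤ 2 ^ j := fun j h =>
    Nat.findGreatest_of_ne_zero rfl h
  let v : ℕ → E := fun j => ((1 / 2 : ℝ) ^ j) • e
  have v1 : ∀ j, ∀ x ∈ H, ∀ s ≥ (0 : ℝ), x - s • v j ∈ H := fun j x hx s hs => by
    rw [smul_smul]
    exact hv x hx _ (by positivity)
  have v2 : ∀ j, ‖v j‖ ≤ (1 / 2) ^ j := fun j => by
    rw [norm_smul, Real.norm_of_nonneg (by positivity)]
    exact mul_le_of_le_one_right (by positivity) he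
  have v3 : ∀ j, v (j + 1) + v (j + 1) = v j := fun j => by
    rw [← add_smul, pow_succ]
    congr 1
    ring
  let R : ℕ → E → ℝ := fun j => ((1 - sh (v j)) ^ m j) g
  let u : ℕ → E → ℝ := fun j y => χ j y * (R j - R (j + 1)) y
  have u1 : ∀ j k A, B H (k + m j) g A → B univ k (u j) (2 ^ k * (K k * (2 ^ (j + 1)) ^ k) *
      (2 * 3 ^ m (j + 1) * (‖v (j + 1)‖ ^ m j * A))) := fun j k A h => by
    obtain ⟨G, h1, h2⟩ := step (v1 (j + 1)) (m1 j) g
    rw [v3] at h1
    have h3 := B.mul (H := {x | x - v (j + 1) ∈ H}) (ho.preimage (by fun_prop))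
      ((hK k j).mono le_rfl le_rfl (subset_univ _)) ((h2 k A h).sh fun _ h => h)
    rw [← h1] at h3
    refine h3.glue fun x _ hx => ?_
    filter_upwards [notMem_tsupport_iff_eventuallyEq.1 fun k => hx (hs j x k)] with y hy
    rw [hy, Pi.zero_apply, zero_mul]
  have u2 : ∀ k, ∀ᶠ j in atTop, ∀ x, ‖iteratedFDeriv ℝ k (u j) x‖ ≤
      2 ^ k * K k * (1 / 2) ^ j := fun k => by
    filter_upwards [m2 (k + 2)] with j hj x
    have h1 := m1 j
    have h2 := m3 (j + 1) (by omega)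
    have h3 := (hC (2 * m (j + 1))).nn
    have h4 : 0 ≤ K k := nonneg_of_mul_nonneg_left (hK k 0).nn (by positivity)
    refine ((u1 j k _ ((hC (2 * m (j + 1))).mono (by omega) le_rfl subset_rfl)).bd k le_rfl x
      trivial).trans ?_
    have h5 : ‖v (j + 1)‖ ^ m j ≤ ((1 / 2) ^ (j + 1)) ^ (k + 2) :=
      (pow_le_pow_left₀ (norm_nonneg _) (v2 _) _).trans
        (pow_le_pow_of_le_one (by positivity) (pow_le_one₀ (by norm_num) (by norm_num)) hj)
    calc _ = 2 ^ k * K k * (2 ^ (j + 1)) ^ k * 2 * ‖v (j + 1)‖ ^ m j *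
          (3 ^ m (j + 1) * C (2 * m (j + 1))) := by ring
      _ ≤ 2 ^ k * K k * (2 ^ (j + 1)) ^ k * 2 * ((1 / 2) ^ (j + 1)) ^ (k + 2) * 2 ^ (j + 1) := by
          gcongr
      _ = _ := by
          simp only [one_div, inv_pow]
          field_simp
          ring
  have s1 : ∀ k, Summable fun j : ℕ => 2 ^ k * K k * (1 / 2 : ℝ) ^ j := fun k =>
    summable_geometric_two.mul_left _
  refine ⟨fun x => ∑' j, u j x, contDiff_tsum_of_eventually (fun j => contDiff_iff_contDiffAt.2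
    fun x => (u1 j 0 _ (hC _)).sm x trivial) (fun k _ => s1 k) fun k _ =>
      Nat.cofinite_eq_atTop ▸ u2 k, fun x hx h1 => ?_⟩
  have s2 : Summable fun j => u j x := (s1 0).of_norm_bounded_eventually_nat
    ((u2 0).mono fun j h => by simpa using h x)
  have s3 : Tendsto (fun j => R j x) atTop (𝓝 0) := by
    refine squeeze_zero_norm' ?_ (tendsto_pow_atTop_nhds_zero_of_lt_one (r := (1 / 2 : ℝ))
      (by norm_num) (by norm_num))
    filter_upwards [m2 2] with j hj
    have h2 := (((hC (2 * m j)).mono (show 0 + m j ≤ _ by omega) le_rfl subset_rfl).pow (v1 j)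
      (m j)).bd 0 le_rfl x hx
    rw [norm_iteratedFDeriv_zero] at h2
    have h3 := (hC (2 * m j)).nn
    have h4 : C (2 * m j) ≤ 2 ^ j :=
      (le_mul_of_one_le_left h3 (one_le_pow₀ (by norm_num))).trans (m3 j (by omega))
    have h5 : ‖v j‖ ^ m j ≤ ((1 / 2) ^ j) ^ 2 := (pow_le_pow_left₀ (norm_nonneg _) (v2 _) _).trans
      (pow_le_pow_of_le_one (by positivity) (pow_le_one₀ (by norm_num) (by norm_num)) hj)
    calc _ ≤ ((1 / 2 : ℝ) ^ j) ^ 2 * 2 ^ j := h2.trans (by gcongr)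
      _ = _ := by
          simp only [one_div, inv_pow]
          field_simp
  refine tendsto_nhds_unique s2.hasSum.tendsto_sum_nat ?_
  have s4 : ∀ n, ∑ j ∈ Finset.range n, u j x = g x - R n x := fun n => by
    simp only [u, h1, one_mul, Pi.sub_apply]
    rw [Finset.sum_range_sub']
    rfl
  simpa only [s4, sub_zero] using tendsto_const_nhds.sub s3

end Vale.Agent.P136S
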