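import Vale.Agent.P136S.Loc
import Vale.Agent.P136S.Defs
import Vale.Agent.P136.H969.Final

open Set Filter Topology MeasureTheory
open scoped ContDiff

namespace Vale.Agent.P136S

open Vale.Agent.P136.Elasticity

variable {Ω : Set E3} {f lam mu lam' mu' : E3 → ℝ}

theorem SmoothUpTo.ext (hΩ : SmoothDomain Ω) (h : SmoothUpTo Ω f) :
    ∃ F, Smooth F ∧ ∀ x ∈ closure Ω, F x = f x := by
  obtain ⟨F, h1, h2⟩ := extend hΩ.isOpen (B.of_forall
    (fun x hx => h.1.contDiffAt (hΩ.isOpen.mem_nhds hx)) h.2.2) fun p hp => by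
      obtain ⟨U, hU, ρ, hρ, ⟨i, hi⟩, h3⟩ := hΩ.smooth_boundary p hp
      exact ⟨U, hU, ρ, hρ, fun h4 => hi (by simp [pd, h4]), h3⟩
  exact ⟨F, h1, h2.of_subset_closure h1.continuous.continuousOn h.2.1 subset_closure subset_rfl⟩

theorem of_closure (ho : IsOpen Ω) (hb : Bornology.IsBounded Ω)
    (h : ContDiffOn ℝ ∞ f (closure Ω)) : SmoothUpTo Ω f := by
  refine ⟨h.mono subset_closure, h.continuousOn, fun k => ?_⟩
  suffices H : ∃ C : ℝ, ∀ x ∈ closure Ω, x ∈ Ω → ‖iteratedFDeriv ℝ k f x‖ ≤ C from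
    H.imp fun C hC x hx => hC x (subset_closure hx) hx
  refine hb.isCompact_closure.induction_on (p := fun t => ∃ C : ℝ, ∀ x ∈ t, x ∈ Ω →
    ‖iteratedFDeriv ℝ k f x‖ ≤ C) ⟨0, fun _ h => h.elim⟩
    (fun s t hst ⟨C, hC⟩ => ⟨C, fun x hx => hC x (hst hx)⟩)
    (fun s t ⟨C, hC⟩ ⟨D, hD⟩ => ⟨max C D, fun x hx h => hx.elim
      (fun k => (hC x k h).trans (le_max_left _ _)) fun k => (hD x k h).trans (le_max_right _ _)⟩)
    fun x hx => ?_
  obtain ⟨u, hu, p, hp⟩ := contDiffWithinAt_nat.1 ((h x hx).of_le (le_inf k))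
  rw [insert_eq_of_mem hx] at hu
  have h1 := ((hp.cont k le_rfl x (mem_of_mem_nhdsWithin hx hu)).mono_of_mem_nhdsWithin
    hu).norm.eventually (eventually_le_nhds (lt_add_one _))
  refine ⟨_, inter_mem h1 (eventually_eventually_nhdsWithin.2 hu), ‖p x k‖ + 1,
    fun y hy h2 => ?_⟩
  have h3 : y ∈ interior u := mem_interior_iff_mem_nhds.2 (by
    have h4 := hy.2
    rwa [mem_ofPred_eq, nhdsWithin_eq_nhds.2 (mem_of_superset (ho.mem_nhds h2) subset_closure)]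
      at h4)
  rw [← iteratedFDerivWithin_of_isOpen k isOpen_interior h3,
    ← (hp.mono interior_subset).eq_iteratedFDerivWithin_of_uniqueDiffOn le_rfl
      isOpen_interior.uniqueDiffOn h3]
  exact hy.1

theorem form_congr (ho : IsOpen Ω) (h1 : ∀ x ∈ closure Ω, lam' x = lam x)
    (h2 : ∀ x ∈ closure Ω, mu' x = mu x) : form Ω lam' mu' = form Ω lam mu := by
  funext G H
  refine setIntegral_congr_fun ho.measurableSet fun x hx => ?_
  simp only [h1 x (subset_closure hx), h2 x (subset_closure hx)]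

theorem AdmissibleUpTo.ext (hΩ : SmoothDomain Ω) (h : AdmissibleUpTo Ω lam mu) :
    ∃ lam' mu', Admissible Ω lam' mu' ∧ DN Ω lam' mu' = DN Ω lam mu ∧
      ∀ x ∈ closure Ω, lam' x = lam x ∧ mu' x = mu x := by
  obtain ⟨L, a1, a2⟩ := h.1.ext hΩ
  obtain ⟨M, b1, b2⟩ := h.2.1.ext hΩ
  refine ⟨L, M, ⟨a1, b1, fun x hx => ?_⟩, ?_, fun x hx => ⟨a2 x hx, b2 x hx⟩⟩
  · rw [a2 x hx, b2 x hx]
    exact h.2.2 x hx
  · funext f g r
    simp only [DN, WeakSol, form_congr hΩ.isOpen a2 b2]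

end Vale.Agent.P136S
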