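import Vale.Agent.P136S.Den
import Mathlib.MeasureTheory.Measure.Hausdorff
import Mathlib.MeasureTheory.Integral.Layercake

/-!
# A divergence inequality with the Hausdorff measure of the boundary
-/

open Set Filter Topology MeasureTheory Metric
open scoped ContDiff ENNReal

namespace Vale.Agent.P136S

open Vale.Agent.P136

variable {Ω : Set E3} {v : E3} {t : ℝ} {g w d : E3 → ℝ}

/-- the set swept by `B` in the direction `v` -/
def St (v : E3) (t : ℝ) (B : Set E3) : Set E3 := {x | ∃ b ∈ B, ∃ s ∈ Icc 0 t, x = b + s • v}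

theorem tube_small (hv : ‖v‖ ≤ 1) {s : Set E3} {b : E3} {r : ℝ} (hr : 0 < r) (ht : r ≤ t)
    (hs : s ⊆ closedBall b r) :
    volume (St v t s) ≤ ENNReal.ofReal (16 * t * r ^ 2) * volume (ball (0 : E3) 1) := by
  have h1 : St v t s ⊆ ⋃ k ∈ Finset.range (⌊t / r⌋₊ + 1),
      closedBall (b + ((k : ℝ) * r) • v) (2 * r) := by
    rintro _ ⟨y, hy, σ, hσ, rfl⟩
    have h0 : 0 ≤ σ / r := div_nonneg hσ.1 hr.le
    refine mem_biUnion (x := ⌊σ / r⌋₊) (Finset.mem_coe.2 (Finset.mem_range.2 (Nat.lt_succ_of_le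
      (Nat.floor_le_floor (div_le_div_of_nonneg_right hσ.2 hr.le))))) ?_
    have h2 := (le_div_iff₀ hr).1 (Nat.floor_le h0)
    have h3 := (div_lt_iff₀ hr).1 (Nat.lt_floor_add_one (σ / r))
    have h4 := mem_closedBall_iff_norm.1 (hs hy)
    rw [mem_closedBall_iff_norm, add_sub_add_comm, ← sub_smul]
    refine (norm_add_le _ _).trans ?_
    rw [norm_smul, Real.norm_of_nonneg (by linarith)]
    nlinarith [norm_nonneg v]
  refine (measure_mono h1).trans ((measure_biUnion_finset_le _ _).trans ?_)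
  simp only [Measure.addHaar_closedBall _ _ (show 0 ≤ 2 * r by positivity), Finset.sum_const,
    Finset.card_range, nsmul_eq_mul, finrank_euclideanSpace_fin]
  rw [← mul_assoc, ← ENNReal.ofReal_natCast, ← ENNReal.ofReal_mul (by positivity)]
  refine mul_le_mul_left (ENNReal.ofReal_le_ofReal ?_) _
  have h2 := (le_div_iff₀ hr).1 (Nat.floor_le (div_nonneg (hr.le.trans ht) hr.le))
  push_cast
  nlinarith [mul_le_mul_of_nonneg_right (add_le_add h2 ht) (sq_nonneg r)]

theorem tube (hv : ‖v‖ ≤ 1) (ht : 0 < t) (B : Set E3) :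
    volume (St v t B) ≤ ENNReal.ofReal (16 * t) * volume (ball (0 : E3) 1) * μH[2] B := by
  let μ : OuterMeasure E3 := ⟨fun B => volume (St v t B), by simp [St],
    fun h => measure_mono fun _ ⟨b, hb, k⟩ => ⟨b, h hb, k⟩, fun s _ =>
      le_trans (measure_mono (by
        rintro _ ⟨b, hb, k⟩
        exact (mem_iUnion.1 hb).elim fun i hi => mem_iUnion.2 ⟨i, b, hi, k⟩))
        (measure_iUnion_le fun i => St v t (s i))⟩
  have c1 : volume (ball (0 : E3) 1) ≠ ⊤ := measure_ball_lt_top.ne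
  have h1 := OuterMeasure.le_mkMetric ((ENNReal.ofReal (16 * t) * volume (ball (0 : E3) 1)) •
    fun r : ℝ≥0∞ => r ^ (2 : ℝ)) μ (ENNReal.ofReal (t / 2)) (by simpa using ht) fun s hs => by
      rcases s.eq_empty_or_nonempty with rfl | ⟨b, hb⟩
      · simp
      have h2 : ediam s ≠ ⊤ := ne_top_of_le_ne_top ENNReal.ofReal_ne_top hs
      have h3 : diam s ≤ t / 2 := ENNReal.toReal_le_of_le_ofReal (by positivity) hs
      have h4 : Tendsto (fun r : ℝ => ENNReal.ofReal (16 * t * r ^ 2) * volume (ball (0 : E3) 1))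
          (𝓝[>] diam s) (𝓝 _) := ENNReal.Tendsto.mul_const (((ENNReal.continuous_ofReal.comp
            (by fun_prop)).tendsto _).mono_left nhdsWithin_le_nhds) (Or.inr c1)
      refine (ge_of_tendsto h4 ?_).trans_eq ?_
      · filter_upwards [Ioo_mem_nhdsGT (show diam s < t by linarith)] with r hr
        exact tube_small hv (diam_nonneg.trans_lt hr.1) hr.2.le fun y hy =>
          (dist_le_diam_of_mem' h2 hy hb).trans hr.1.le
      · rw [Function.comp_apply, ENNReal.ofReal_mul (by positivity),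
          ENNReal.ofReal_pow diam_nonneg, diam, ENNReal.ofReal_toReal h2]
        simp [mul_right_comm]
  rw [OuterMeasure.mkMetric_smul _ (ENNReal.mul_ne_top ENNReal.ofReal_ne_top c1)
    (mul_ne_zero (by simpa using ht) (measure_ball_pos _ _ one_pos).ne')] at h1
  refine (h1 B).trans_eq ?_
  rw [smul_apply, OuterMeasure.coe_mkMetric]
  rfl

theorem fin_bd (hΩ : Elasticity.SmoothDomain Ω) :
    IsFiniteMeasure (μH[2].restrict (frontier Ω)) := by
  have ho := hΩ.isOpen
  refine isFiniteMeasure_restrict.2 ((hΩ.isBounded.isCompact_closure.of_isClosed_subset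
    isClosed_frontier frontier_subset_closure).measure_lt_top_of_nhdsWithin fun p hp => ?_).ne
  obtain ⟨U, hU, ρ, hρ, ⟨i, hi⟩, hy⟩ := hΩ.smooth_boundary p hp
  replace hρ : ContDiff ℝ ∞ ρ := hρ
  obtain ⟨φ, hφ⟩ : ∃ φ, φ = fderiv ℝ ρ p := ⟨_, rfl⟩
  replace hi : φ (bv i) ≠ 0 := hφ ▸ hi
  have ha := abs_pos.2 hi
  obtain ⟨r, hr, hK⟩ := nhds_basis_closedBall.mem_iff.1 (inter_mem (interior_mem_nhds.2 hU)
    ((hρ.continuous_fderiv (by simp)).continuousAt.eventually
      (closedBall_mem_nhds _ (half_pos ha))))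
  have h0 : ∀ b ∈ frontier Ω ∩ closedBall p r, ρ b = 0 := fun b hb => le_antisymm
    (closure_minimal (fun y h => ((hy y (interior_subset h.1)).1 h.2).le)
      (isClosed_le hρ.continuous continuous_const)
      (isOpen_interior.inter_closure ⟨(hK hb.2).1, hb.1.1⟩))
    (not_lt.1 fun h => hb.1.2 (ho.interior_eq.symm ▸ (hy b (interior_subset (hK hb.2).1)).2 h))
  refine ⟨_, inter_mem_nhdsWithin _ (closedBall_mem_nhds p hr), ?_⟩
  let K := LinearMap.ker (φ : E3 →ₗ[ℝ] ℝ)
  let π : E3 → K := fun x => ⟨x - (φ x / φ (bv i)) • bv i, by simp [K, hi]⟩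
  have hπ : Continuous π := Continuous.subtype_mk (by fun_prop) _
  have hK2 : Module.finrank ℝ K = 2 := by
    have h1 := Module.Dual.finrank_ker_add_one_of_ne_zero (f := (φ : E3 →ₗ[ℝ] ℝ))
      fun h => hi (LinearMap.congr_fun h _)
    rw [finrank_euclideanSpace_fin] at h1
    exact Nat.succ_injective h1
  have h2 : AntilipschitzWith 2 fun x : ↥(frontier Ω ∩ closedBall p r) => π x :=
    .of_le_mul_dist fun x y => by
      have h3 := (convex_closedBall p r).norm_image_sub_le_of_norm_fderiv_le' (𝕜 := ℝ) (f := ρ)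
        (φ := φ) (C := |φ (bv i)| / 2) (fun y _ => hρ.differentiable (by simp) y)
        (fun y hy => by simpa [dist_eq_norm, hφ] using (hK hy).2) y.2.2 x.2.2
      rw [h0 _ x.2, h0 _ y.2, sub_zero, zero_sub, norm_neg, Real.norm_eq_abs] at h3
      have h4 := norm_add_le ((x : E3) - y - (φ (x - y) / φ (bv i)) • bv i)
        ((φ (x - y) / φ (bv i)) • bv i)
      have h5 : ‖bv i‖ = 1 := by simp [bv]
      rw [sub_add_cancel, norm_smul, h5, mul_one, Real.norm_eq_abs, abs_div] at h4
      have h6 : |φ (x - y)| / |φ (bv i)| ≤ ‖(x : E3) - y‖ / 2 := by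
        rw [div_le_iff₀ ha]
        linarith
      have h7 : dist (π x) (π y) = ‖(x : E3) - y - (φ (x - y) / φ (bv i)) • bv i‖ := by
        rw [Subtype.dist_eq, dist_eq_norm, map_sub, sub_div, sub_smul]
        congr 1
        simp only [π]
        abel
      rw [h7, Subtype.dist_eq, dist_eq_norm]
      push_cast
      linarith
  have h3 := h2.le_hausdorffMeasure_image (d := 2) (by norm_num) univ
  rw [← isometry_subtype_coe.hausdorffMeasure_image (Or.inl (by norm_num)), image_univ,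
    Subtype.range_coe] at h3
  refine h3.trans_lt (ENNReal.mul_lt_top (by simp) ?_)
  have h4 := ((isCompact_closedBall p r).image hπ).measure_lt_top (μ := μH[Module.finrank ℝ K])
  rw [hK2] at h4
  exact (measure_mono (by rintro _ ⟨x, -, rfl⟩; exact ⟨x, x.2.2, rfl⟩)).trans_lt h4

theorem seg (ho : IsOpen Ω) (ht : 0 < t) {y : E3} (h : ¬(y - t • v ∈ Ω ↔ y ∈ Ω)) :
    ∃ s ∈ Icc 0 t, y - s • v ∈ frontier Ω := by
  by_contra h1
  push Not at h1
  have h2 : IsPreconnected ((fun s : ℝ => y - s • v) '' Icc 0 t) :=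
    isPreconnected_Icc.image _ (by fun_prop)
  have h3 : y ∈ (fun s : ℝ => y - s • v) '' Icc 0 t := ⟨0, left_mem_Icc.2 ht.le, by simp⟩
  have h4 : y - t • v ∈ (fun s : ℝ => y - s • v) '' Icc 0 t := ⟨t, right_mem_Icc.2 ht.le, rfl⟩
  rcases h2.subset_or_subset ho isClosed_closure.isOpen_compl
    (disjoint_compl_right_iff_subset.2 subset_closure) (by
      rintro _ ⟨s, hs, rfl⟩
      by_contra h5
      rw [mem_union, not_or, mem_compl_iff, not_not] at h5
      exact h1 s hs ⟨h5.2, fun k => h5.1 (interior_subset k)⟩) with h5 | h5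
  · exact h (iff_of_true (h5 h4) (h5 h3))
  · exact h (iff_of_false (fun k => h5 h4 (subset_closure k)) fun k => h5 h3 (subset_closure k))

theorem diff_le (ho : IsOpen Ω) (hv : ‖v‖ ≤ 1) (ht : 0 < t) {L : NNReal} (hg : LipschitzWith L g)
    (hi : Integrable g) (hj : IntegrableOn (fun x => |g x| + L * t) (frontier Ω) μH[2]) :
    |∫ x in Ω, (g (x + t • v) - g x)| ≤ 16 * t * (volume (ball (0 : E3) 1)).toReal *
      ∫ x in frontier Ω, (|g x| + L * t) ∂μH[2] := by
  have hm := ho.measurableSet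
  have hA : MeasurableSet {y | y - t • v ∈ Ω} := (ho.preimage (by fun_prop)).measurableSet
  have i1 := hi.indicator hA
  have i2 := hi.indicator hm
  have i3 : Integrable fun y => |{y | y - t • v ∈ Ω}.indicator g y - Ω.indicator g y| :=
    (i1.sub i2).abs
  have hc := hg.continuous
  have h1 : ∫ x in Ω, (g (x + t • v) - g x) =
      ∫ y, ({y | y - t • v ∈ Ω}.indicator g y - Ω.indicator g y) := by
    rw [integral_sub (hi.comp_add_right _).integrableOn hi.integrableOn, integral_sub i1 i2,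
      ← integral_indicator hm, ← integral_indicator hm, ← integral_sub_right_eq_self _ (t • v)]
    congr 2
    funext y
    by_cases h : y - t • v ∈ Ω <;> simp [indicator, h]
  have n0 : ∀ x, 0 ≤ |g x| + L * t := fun x => by positivity
  have h2 : ∫⁻ y, ENNReal.ofReal |{y | y - t • v ∈ Ω}.indicator g y - Ω.indicator g y| ≤
      ENNReal.ofReal (16 * t) * volume (ball (0 : E3) 1) *
        ∫⁻ x in frontier Ω, ENNReal.ofReal (|g x| + L * t) ∂μH[2] := by
    rw [lintegral_eq_lintegral_meas_lt _ (.of_forall fun _ => abs_nonneg _)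
      i3.aemeasurable, lintegral_eq_lintegral_meas_lt _ (.of_forall n0)
      hj.aemeasurable, ← lintegral_const_mul' _ _
        (ENNReal.mul_ne_top ENNReal.ofReal_ne_top measure_ball_lt_top.ne)]
    refine setLIntegral_mono' measurableSet_Ioi fun l hl => ?_
    rw [Measure.restrict_apply (isOpen_lt continuous_const (by fun_prop)).measurableSet]
    refine (measure_mono fun y hy => ?_).trans (tube hv ht _)
    have h3 : ¬(y - t • v ∈ Ω ↔ y ∈ Ω) ∧ l < |g y| := by
      have h4 : (0 : ℝ) < l := hl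
      have h5 : l < _ := hy
      by_cases a : y - t • v ∈ Ω <;> by_cases b : y ∈ Ω <;>
        simp [indicator, a, b] at h5 ⊢ <;> linarith
    obtain ⟨s, hs, h4⟩ := seg ho ht h3.1
    refine ⟨_, ⟨?_, h4⟩, s, hs, (sub_add_cancel _ _).symm⟩
    have h5 := hg.dist_le_mul y (y - s • v)
    rw [dist_eq_norm y, sub_sub_cancel, norm_smul, Real.norm_of_nonneg hs.1, Real.dist_eq] at h5
    have h6 := mul_le_mul_of_nonneg_left ((mul_le_of_le_one_right hs.1 hv).trans hs.2)
      L.coe_nonneg
    exact h3.2.trans_le (by linarith [abs_sub_abs_le_abs_sub (g y) (g (y - s • v))])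
  rw [← ofReal_integral_eq_lintegral_ofReal i3 (.of_forall fun _ => abs_nonneg _),
    ← ofReal_integral_eq_lintegral_ofReal hj (.of_forall n0),
    ← ENNReal.ofReal_toReal (measure_ball_lt_top (x := (0 : E3)) (r := 1)).ne,
    ← ENNReal.ofReal_mul (by positivity), ← ENNReal.ofReal_mul (by positivity),
    ENNReal.ofReal_le_ofReal_iff (mul_nonneg (by positivity) (integral_nonneg n0))] at h2
  rw [h1]
  exact abs_integral_le_integral_abs.trans h2

theorem memLp_bd (hΩ : Elasticity.SmoothDomain Ω) (hg : Continuous g) :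
    MemLp g 2 (μH[2].restrict (frontier Ω)) := by
  have := fin_bd hΩ
  obtain ⟨M, -, hM⟩ := BD.coef_bdd hΩ.isBounded hg
  exact .of_bound hg.aestronglyMeasurable M ((ae_restrict_mem
    isClosed_frontier.measurableSet).mono fun x hx => hM x (frontier_subset_closure hx))

theorem div_le (hΩ : Elasticity.SmoothDomain Ω) (hg : ContDiff ℝ ∞ g) (hc : HasCompactSupport g)
    (i : Fin 3) : |∫ x in Ω, pd i g x| ≤ 16 * (volume (ball (0 : E3) 1)).toReal *
      ∫ x in frontier Ω, |g x| ∂μH[2] := by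
  have := fin_bd hΩ
  have : IsFiniteMeasure (volume.restrict Ω) :=
    isFiniteMeasure_restrict.2 hΩ.isBounded.measure_lt_top.ne
  obtain ⟨L, hL⟩ := hg.lipschitzWith_of_hasCompactSupport hc (by simp)
  have h0 : ‖bv i‖ = 1 := by simp [bv]
  have hk := hg.continuous
  have h1 : Tendsto (fun t : ℝ => ∫ x in Ω, t⁻¹ • (g (x + t • bv i) - g x)) (𝓝[>] 0)
      (𝓝 (∫ x in Ω, pd i g x)) := by
    refine tendsto_integral_filter_of_norm_le_const
      (.of_forall fun t => Continuous.aestronglyMeasurable (by fun_prop))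
      ⟨L, eventually_mem_nhdsWithin.mono fun t (ht : 0 < t) => .of_forall fun x => ?_⟩
      (.of_forall fun x => ?_)
    · have h2 := hL.dist_le_mul (x + t • bv i) x
      rw [dist_eq_norm, dist_eq_norm, add_sub_cancel_left, norm_smul, h0, mul_one] at h2
      rw [norm_smul, norm_inv, inv_mul_le_iff₀' (norm_pos_iff.2 ht.ne')]
      exact h2
    · exact ((hg.differentiable (by simp) x).hasFDerivAt.hasLineDerivAt
        (bv i)).tendsto_slope_zero_right
  have h2 := ((memLp_bd hΩ hk).integrable one_le_two).abs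
  have h3 : Tendsto (fun t : ℝ => 16 * (volume (ball (0 : E3) 1)).toReal *
      (∫ x in frontier Ω, |g x| ∂μH[2] + (μH[2].restrict (frontier Ω)).real univ * (L * t)))
      (𝓝[>] 0) (𝓝 _) := (Continuous.tendsto (by fun_prop) 0).mono_left nhdsWithin_le_nhds
  simp only [mul_zero, add_zero] at h3
  refine le_of_tendsto_of_tendsto h1.abs h3
    (eventually_mem_nhdsWithin.mono fun t (ht : 0 < t) => ?_)
  have h4 := diff_le hΩ.isOpen h0.le ht hL (hk.integrable_of_hasCompactSupport hc)
    (h2.add (integrable_const _))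
  rw [integral_add h2 (integrable_const _), integral_const, smul_eq_mul] at h4
  simp only [integral_const_mul, smul_eq_mul, abs_mul, abs_inv, abs_of_pos ht]
  rw [inv_mul_le_iff₀ ht]
  exact h4.trans_eq (by ring)

theorem amgm {μ : Measure E3} {a b : E3 → ℝ} (ha : MemLp a 2 μ) (hb : MemLp b 2 μ) {δ : ℝ}
    (hδ : 0 < δ) (h : ∫ x, a x ^ 2 ∂μ ≤ δ ^ 2) :
    ∫ x, |a x * b x| ∂μ ≤ δ * (∫ x, b x ^ 2 ∂μ + 1) := by
  have h1 := (BD.Rough.sq_int' ha).const_mul δ⁻¹
  have h2 := (BD.Rough.sq_int' hb).const_mul δ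
  refine (integral_mono (ha.integrable_mul hb).abs (h2.add h1) fun x => ?_).trans ?_
  · show |a x * b x| ≤ δ * b x ^ 2 + δ⁻¹ * a x ^ 2
    rw [abs_mul, ← sq_abs (a x), ← sq_abs (b x), ← mul_le_mul_iff_right₀ hδ, mul_add,
      mul_inv_cancel_left₀ hδ.ne']
    nlinarith [sq_nonneg (δ * |b x| - |a x|), mul_nonneg hδ.le
      (mul_nonneg (abs_nonneg (a x)) (abs_nonneg (b x)))]
  · simp only [Pi.add_apply]
    rw [integral_add h2 h1, integral_const_mul, integral_const_mul, mul_add, mul_one]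
    gcongr
    rw [inv_mul_le_iff₀ hδ, ← sq]
    exact h

/-- zero trace: the extension by zero is weakly differentiable on the whole space -/
theorem wd_of_trace (hΩ : Elasticity.SmoothDomain Ω) (hw : MemLp w 2 (volume.restrict Ω))
    (hd : MemLp d 2 (volume.restrict Ω)) {i : Fin 3} (h : ∀ ε > 0, ∃ φ, ContDiff ℝ ∞ φ ∧
      ∫ x in Ω, (w x - φ x) ^ 2 ≤ ε ∧ ∫ x in Ω, (d x - pd i φ x) ^ 2 ≤ ε ∧
      ∫ x in frontier Ω, φ x ^ 2 ∂μH[2] ≤ ε) : WD i (Ω.indicator w) (Ω.indicator d) := by
  intro ψ h1 h2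
  have hb := hΩ.isBounded
  have h4 : ∀ a b : E3 → ℝ, ∫ y, Ω.indicator a y * b y = ∫ y in Ω, a y * b y := fun a b => by
    rw [← integral_indicator hΩ.isOpen.measurableSet]
    exact congrArg _ (funext fun y => (indicator_mul_left Ω a b).symm)
  have m1 := BD.memLp_cont hb h1.continuous
  have m2 := BD.memLp_cont hb (pd_contDiff_infty h1 i).continuous
  rw [h4, h4, eq_neg_iff_add_eq_zero, ← abs_nonpos_iff]
  refine ge_of_tendsto (f := fun δ : ℝ => δ * ((∫ x in Ω, pd i ψ x ^ 2) + 1) +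
    δ * ((∫ x in Ω, ψ x ^ 2) + 1) + 16 * (volume (ball (0 : E3) 1)).toReal *
      (δ * (∫ x in frontier Ω, ψ x ^ 2 ∂μH[2] + 1))) (x := 𝓝[>] 0)
    (Tendsto.mono_left (Continuous.tendsto' (by fun_prop) _ _ (by simp)) nhdsWithin_le_nhds)
    (eventually_mem_nhdsWithin.mono fun δ (hδ : 0 < δ) => ?_)
  obtain ⟨φ, a1, a2, a3, a4⟩ := h (δ ^ 2) (by positivity)
  have m3 := BD.memLp_cont hb a1.continuous
  have m4 := BD.memLp_cont hb (pd_contDiff_infty a1 i).continuous
  have b1 := abs_integral_le_integral_abs.trans (amgm (hw.sub m3) m2 hδ a2)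
  have b2 := abs_integral_le_integral_abs.trans (amgm (hd.sub m4) m1 hδ a3)
  have b3 := (div_le hΩ (a1.mul h1) h2.mul_left i).trans (mul_le_mul_of_nonneg_left
    (amgm (memLp_bd hΩ a1.continuous) (memLp_bd hΩ h1.continuous) hδ a4) (by positivity))
  have e : ∀ x, pd i (fun x => φ x * ψ x) x = φ x * pd i ψ x + pd i φ x * ψ x := fun x => by
    unfold pd
    rw [fderiv_fun_mul (a1.differentiable (by simp) x) (h1.differentiable (by simp) x)]
    simp [mul_comm]
  simp only [Pi.sub_apply, sub_mul, e] at b1 b2 b3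
  have im : ∀ {a b : E3 → ℝ}, MemLp a 2 (volume.restrict Ω) → MemLp b 2 (volume.restrict Ω) →
      Integrable (fun x => a x * b x) (volume.restrict Ω) := fun ha hb => ha.integrable_mul hb
  rw [integral_sub (im hw m2) (im m3 m2)] at b1
  rw [integral_sub (im hd m1) (im m4 m1)] at b2
  rw [integral_add (im m3 m2) (im m4 m1)] at b3
  rw [abs_le] at b1 b2 b3 ⊢
  constructor <;> linarith [b1.1, b1.2, b2.1, b2.2, b3.1, b3.2]

end Vale.Agent.P136S
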