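import Vale.Agent.P136S.Ext
import Mathlib.Analysis.SpecialFunctions.SmoothTransition
import Mathlib.Analysis.Calculus.BumpFunction.FiniteDimension
import Mathlib.Geometry.Manifold.PartitionOfUnity

/-!
# Extension of smooth functions with bounded derivatives across a smooth boundary
-/

open Set Filter Topology Metric
open scoped ContDiff Manifold Pointwise

noncomputable section

namespace Vale.Agent.P136S

variable {E : Type*} [NormedAddCommGroup E] [NormedSpace ℝ E] {Ω U K : Set E} {f ρ g : E → ℝ}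
  {p e : E}

theorem B.of_compact (hK : IsCompact K) (hg : ContDiff ℝ ∞ g) (k : ℕ) : ∃ C ≥ 1, B K k g C := by
  obtain ⟨C, h⟩ := B.of_forall (H := K) (fun _ _ => hg.contDiffAt) (fun i =>
    hK.exists_bound_of_continuousOn (hg.continuous_iteratedFDeriv (le_inf i)).continuousOn) k
  exact ⟨_, le_max_right C 1, h.mono le_rfl (le_max_left _ _) subset_rfl⟩

/-- a cutoff, equal to one on the left of `0` and to zero on the right of `1 / 2` -/
def c0 (s : ℝ) : ℝ := Real.smoothTransition (1 - 2 * s)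

theorem c0_sm : ContDiff ℝ ∞ c0 :=
  Real.smoothTransition.contDiff.comp (contDiff_const.sub (contDiff_const.mul contDiff_id))

theorem c0_one {s : ℝ} (h : s ≤ 0) : c0 s = 1 :=
  Real.smoothTransition.one_of_one_le (by linarith)

theorem c0_zero {s : ℝ} (h : 1 / 2 ≤ s) : c0 s = 0 :=
  Real.smoothTransition.zero_of_nonpos (by linarith)

theorem c0_bd (k : ℕ) : ∃ C, B univ k c0 C := by
  obtain ⟨C, h1, h⟩ := B.of_compact (isCompact_Icc (a := (0 : ℝ)) (b := 1)) c0_sm k
  refine ⟨C, h.nn, fun _ _ => c0_sm.contDiffAt, fun i hi x _ => ?_⟩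
  have h2 : ∀ c : ℝ, |c| ≤ 1 → c0 =ᶠ[𝓝 x] (fun _ => c) → ‖iteratedFDeriv ℝ i c0 x‖ ≤ C :=
    fun c hc h3 => by
      rw [(h3.iteratedFDeriv ℝ i).eq_of_nhds]
      cases i with
      | zero => exact norm_iteratedFDeriv_zero.trans_le (hc.trans h1)
      | succ i => simpa [iteratedFDeriv_succ_const] using h.nn
  rcases lt_or_ge x 0 with h3 | h3
  · exact h2 1 (by simp) ((eventually_lt_nhds h3).mono fun y hy => c0_one hy.le)
  rcases lt_or_ge 1 x with h4 | h4
  · exact h2 0 (by simp) ((eventually_gt_nhds h4).mono fun y hy => c0_zero (by linarith))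
  exact h.bd i hi x ⟨h3, h4⟩

theorem comp_bd (hK : IsCompact K) (hρ : ContDiff ℝ ∞ ρ) (k : ℕ) :
    ∃ C, ∀ t ≥ (1 : ℝ), B K k (fun y => c0 (t * ρ y)) (C * t ^ k) := by
  obtain ⟨C, hC⟩ := c0_bd k
  obtain ⟨A, h1, hA⟩ := B.of_compact hK hρ k
  have h0 := hC.nn
  refine ⟨k.factorial * C * A ^ k, fun t ht => ⟨by positivity, fun x _ =>
    (c0_sm.comp (contDiff_const.mul hρ)).contDiffAt, fun i hi x hx => ?_⟩⟩
  have h2 : 1 ≤ A * t := one_le_mul_of_one_le_of_one_le h1 ht
  have h3 := norm_iteratedFDeriv_comp_le c0_sm (hρ.const_smul t) (le_inf i) x (C := C) (D := A * t)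
    (fun j hj => hC.bd j (hj.trans hi) _ trivial) fun j h4 hj => by
      rw [iteratedFDeriv_const_smul_apply' (hρ.contDiffAt.of_le (le_inf j)), norm_smul,
        Real.norm_of_nonneg (by linarith), mul_comm]
      exact (mul_le_mul_of_nonneg_right (hA.bd j (hj.trans hi) x hx) (by linarith)).trans
        (le_self_pow₀ h2 (by omega))
  refine h3.trans ?_
  rw [mul_assoc _ (A ^ k), ← mul_pow]
  gcongr

theorem loc [FiniteDimensional ℝ E] (ho : IsOpen Ω) (hf : ∀ k, ∃ C, B Ω k f C) (hU : U ∈ 𝓝 p)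
    (hρ : ContDiff ℝ ∞ ρ) (he : ‖e‖ ≤ 1) (h2 : fderiv ℝ ρ p e = 2)
    (hΩ : ∀ y ∈ U, y ∈ Ω ↔ ρ y < 0) :
    ∃ F, ContDiff ℝ ∞ F ∧ ∀ᶠ x in 𝓝 p, x ∈ Ω → F x = f x := by
  have := FiniteDimensional.proper ℝ E
  obtain ⟨r, hr, hK⟩ := nhds_basis_closedBall.mem_iff.1 (inter_mem hU
    ((hρ.continuous_fderiv (by simp)).continuousAt.eventually (closedBall_mem_nhds _ one_pos)))
  have mo : ∀ x ∈ closedBall p r, ∀ s ≥ (0 : ℝ), x - s • e ∈ closedBall p r →
      ρ (x - s • e) ≤ ρ x - s := fun x hx s hs hy => by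
    have h3 := (convex_closedBall p r).norm_image_sub_le_of_norm_fderiv_le' (𝕜 := ℝ) (f := ρ)
      (φ := fderiv ℝ ρ p) (C := 1) (fun y _ => hρ.differentiable (by simp) y)
      (fun y hy => by simpa [dist_eq_norm] using (hK hy).2) hx hy
    rw [sub_sub_cancel_left, map_neg, map_smul, h2, norm_neg, norm_smul, Real.norm_of_nonneg hs,
      smul_eq_mul, Real.norm_eq_abs] at h3
    have := mul_le_of_le_one_right hs he
    linarith [(abs_le.1 h3).2]
  let β : ContDiffBump p := ⟨r / 2, r, half_pos hr, half_lt_self hr⟩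
  have b0 : ∀ x ∉ closedBall p r, ∀ a : E → ℝ, (fun y => β y * a y) =ᶠ[𝓝 x] fun _ => 0 :=
    fun x hx a => by
      filter_upwards [notMem_tsupport_iff_eventuallyEq.1 (β.tsupport_eq ▸ hx)] with y hy
      rw [hy, Pi.zero_apply, zero_mul]
  have b1 : ∀ k, ∃ C, B univ k β C := fun k => by
    obtain ⟨C, -, h⟩ := B.of_compact (isCompact_closedBall p r) β.contDiff k
    exact ⟨C, h.glue fun x _ hx => notMem_tsupport_iff_eventuallyEq.1 (β.tsupport_eq ▸ hx)⟩
  let H : Set E := {y | ∀ s ≥ (0 : ℝ), y - s • e ∈ closedBall p r → y - s • e ∈ Ω}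
  have e0 : e ≠ 0 := by
    rintro rfl
    simp at h2
  have Ho : IsOpen H := by
    have h3 := ((isClosedEmbedding_smul_left (𝕜 := ℝ) e0).isClosedMap _
      (isClosed_Ici (a := 0))).add_left_of_isCompact ((isCompact_closedBall p r).diff ho)
    rw [← isClosed_compl_iff]
    refine (congrArg IsClosed (Set.ext fun y => ?_)).mp h3
    simp only [H, mem_compl_iff, mem_ofPred_eq, not_forall, Set.mem_add]
    constructor
    · rintro ⟨x, hx, _, ⟨s, hs, rfl⟩, rfl⟩
      exact ⟨s, hs, by simpa using hx.1, by simpa using hx.2⟩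
    · rintro ⟨s, hs, h4, h5⟩
      exact ⟨_, ⟨h4, h5⟩, _, ⟨s, hs, rfl⟩, sub_add_cancel _ _⟩
  have Hm : ∀ x ∈ closedBall p r, ∀ t ≥ (0 : ℝ), ρ x < t → x - t • e ∈ H :=
    fun x hx t ht h3 s hs => by
      rw [sub_sub, ← add_smul]
      exact fun h4 => (hΩ _ (hK h4).1).2 (by linarith [mo x hx (t + s) (by positivity) h4])
  obtain ⟨F, F1, F2⟩ := core (g := fun y => β y * f y)
    (χ := fun j y => β y * c0 (2 ^ (j + 1) * ρ y)) Ho (e := e)
    (fun x hx t ht s hs => by
      rw [sub_sub, ← add_smul]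
      exact hx _ (by positivity)) he
    (fun k => by
      obtain ⟨A, hA⟩ := b1 k
      obtain ⟨C, hC⟩ := hf k
      refine ⟨_, ((hA.mono le_rfl le_rfl (subset_univ _)).mul ho hC).glue fun x hx h3 =>
        b0 x (fun h4 => h3 ?_) f⟩
      simpa using hx 0 le_rfl (by simpa using h4))
    (fun k => by
      obtain ⟨A, hA⟩ := b1 k
      obtain ⟨C, hC⟩ := comp_bd (isCompact_closedBall p (r + 1)) hρ k
      refine ⟨2 ^ k * A * C, fun j => ?_⟩
      rw [mul_assoc _ C]
      exact ((hA.mono le_rfl le_rfl (subset_univ _)).mul isOpen_ball ((hC _ (one_le_pow₀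
        one_le_two)).mono le_rfl le_rfl ball_subset_closedBall)).glue fun x _ h3 =>
          b0 x (fun h4 => h3 (closedBall_subset_ball (lt_add_one r) h4)) _)
    (fun j x hx => by
      refine Hm x (β.tsupport_eq ▸ tsupport_mul_subset_left hx) _ (by positivity) ?_
      have h3 : x ∈ {y | 2 ^ (j + 1) * ρ y ≤ 1 / 2} :=
        closure_minimal (fun y hy => by
          by_contra h4
          exact hy (mul_eq_zero_of_right _ (c0_zero (not_le.1 h4).le)))
          (isClosed_le (continuous_const.mul hρ.continuous) continuous_const) hx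
      rw [one_div, inv_pow, ← one_div, lt_div_iff₀' (by positivity)]
      exact lt_of_le_of_lt h3 (by norm_num))
  refine ⟨F, F1, ?_⟩
  filter_upwards [β.eventuallyEq_one, closedBall_mem_nhds p hr] with x h3 h4 h5
  have h6 := (hΩ x (hK h4).1).1 h5
  rw [F2 x (by simpa using Hm x h4 0 le_rfl h6) fun j => by
    rw [h3, c0_one (mul_nonpos_of_nonneg_of_nonpos (by positivity) h6.le)]
    simp, h3]
  simp

/-- A function which is smooth with bounded derivatives in an open set with smooth boundary is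
the restriction of a smooth function on the whole space. -/
theorem extend [FiniteDimensional ℝ E] (ho : IsOpen Ω) (hf : ∀ k, ∃ C, B Ω k f C)
    (hb : ∀ p ∈ frontier Ω, ∃ U ∈ 𝓝 p, ∃ ρ : E → ℝ, ContDiff ℝ ∞ ρ ∧ fderiv ℝ ρ p ≠ 0 ∧
      ∀ y ∈ U, (y ∈ Ω ↔ ρ y < 0)) : ∃ F, ContDiff ℝ ∞ F ∧ EqOn F f Ω := by
  obtain ⟨F, hF⟩ := exists_contMDiffMap_forall_mem_convex_of_local (n := ⊤) 𝓘(ℝ, E)
    (t := fun x => {y | x ∈ Ω → y = f x}) (fun x => by
      by_cases h : x ∈ Ω
      · simp [h]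
      · simp [h, convex_univ]) fun p => by
    by_cases h1 : p ∈ Ω
    · obtain ⟨C, hC⟩ := hf 0
      exact ⟨Ω, ho.mem_nhds h1, f, contMDiffOn_iff_contDiffOn.2 fun x hx =>
        (hC.sm x hx).contDiffWithinAt, fun _ _ _ => rfl⟩
    by_cases h2 : p ∈ closure Ω
    · obtain ⟨U, hU, ρ, hρ, h3, hΩ⟩ := hb p ⟨h2, fun h => h1 (interior_subset h)⟩
      obtain ⟨e, he, h4⟩ : ∃ e, ‖e‖ ≤ 1 ∧ 0 < fderiv ℝ ρ p e := by
        obtain ⟨x, h5, h6⟩ := (fderiv ℝ ρ p).exists_lt_apply_of_lt_opNorm (norm_pos_iff.2 h3)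
        rcases lt_or_gt_of_ne (norm_pos_iff.1 h6) with h7 | h7
        · exact ⟨-x, by simpa using h5.le, by simpa using h7⟩
        · exact ⟨x, h5.le, h7⟩
      obtain ⟨F, F1, F2⟩ := loc (ρ := (2 / fderiv ℝ ρ p e) • ρ) ho hf hU
        (hρ.const_smul (2 / fderiv ℝ ρ p e)) he
        (by rw [fderiv_const_smul (hρ.differentiable (by simp) p)]; simp [h4.ne']) fun y hy => by
          have h5 : 0 < 2 / fderiv ℝ ρ p e := by positivity
          rw [hΩ y hy, Pi.smul_apply, smul_eq_mul]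
          exact ⟨mul_neg_of_pos_of_neg h5, fun h => neg_of_mul_neg_right h h5.le⟩
      exact ⟨_, F2, F, F1.contMDiff.contMDiffOn, fun _ h => h⟩
    · exact ⟨_, isClosed_closure.isOpen_compl.mem_nhds h2, fun _ => 0, contMDiffOn_const,
        fun y hy h => (hy (subset_closure h)).elim⟩
  exact ⟨F, F.contMDiff.contDiff, fun x hx => hF x hx⟩

end Vale.Agent.P136S
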