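import Vale.Agent.P136S.Defs
import Mathlib.MeasureTheory.Measure.Hausdorff

open MeasureTheory

namespace Vale.Agent.P136S

open Vale.Agent.P136.Elasticity

/-- The field `f`, square integrable on the boundary for the surface measure (two dimensional
Hausdorff measure), is the trace of `u ∈ H¹(Ω; ℝ³)`: there are smooth fields which converge to `u`
in `H¹(Ω)` and to `f` in `L²(∂Ω)`. -/
def HasTrace {Ω : Set E3} (u : H1 Ω) (f : Fin 3 → E3 → ℝ) : Prop :=
  (∀ j, MemLp (f j) 2 (μH[2].restrict (frontier Ω))) ∧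
    ∀ ε > 0, ∃ φ : Fin 3 → E3 → ℝ, (∀ j, Smooth (φ j)) ∧
      (∀ j, integ Ω (fun x => (u.val j x - φ j x) ^ 2) < ε) ∧
      (∀ i j, integ Ω (fun x => (u.der i j x - pd i (φ j) x) ^ 2) < ε) ∧
      ∀ j, ∫ x in frontier Ω, (f j x - φ j x) ^ 2 ∂μH[2] < ε

/-- The displacement-to-traction map on boundary fields: `⟨Λ f, g⟩ = r`, where `u` is a weak
solution with trace `f` and `v` is an element of `H¹(Ω; ℝ³)` with trace `g`. -/
def TraceDN (Ω : Set E3) (lam mu : E3 → ℝ) (f g : Fin 3 → E3 → ℝ) (r : ℝ) : Prop :=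
  ∃ u v : H1 Ω, HasTrace u f ∧ HasTrace v g ∧ WeakSol lam mu u ∧ r = form Ω lam mu u.der v.der

end Vale.Agent.P136S
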