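import Vale.Agent.P136S.Tr
import Mathlib.MeasureTheory.Measure.Haar.Unique
import Mathlib.MeasureTheory.Function.L2Space

/-!
# The trace inequality, existence and uniqueness of traces
-/

open Set Filter Topology MeasureTheory Metric
open scoped ContDiff ENNReal

namespace Vale.Agent.P136S

open Vale.Agent.P136

variable {Ω : Set E3} {g : E3 → ℝ} {p e b : E3} {T : ℝ}

theorem one_dim (hg : ContDiff ℝ ∞ g) (hT : 0 < T) {i : Fin 3}
    (he : ∀ L : E3 →L[ℝ] ℝ, L e ^ 2 = L (bv i) ^ 2) :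
    g b ^ 2 ≤ (1 / T + 1) * ∫ s in (0)..T, (g (b - s • e) ^ 2 + ∑ k, pd k g (b - s • e) ^ 2) := by
  have c1 := hg.continuous
  have c2 := hg.continuous_fderiv (by simp)
  have c3 := fun k => (pd_contDiff_infty hg k).continuous
  have h1 : ∀ s : ℝ, HasDerivAt (fun s : ℝ => (s / T - 1) * g (b - s • e) ^ 2)
      (1 / T * g (b - s • e) ^ 2 + (s / T - 1) * (2 * g (b - s • e) *
        fderiv ℝ g (b - s • e) (-e))) s := fun s => by
    have h2 := ((hg.differentiable (by simp) _).hasFDerivAt.comp_hasDerivAt s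
      (((hasDerivAt_id s).smul_const e).const_sub b)).fun_pow 2
    simpa using (((hasDerivAt_id s).div_const T).sub_const 1).fun_mul h2
  have h2 := intervalIntegral.integral_eq_sub_of_hasDerivAt (a := 0) (b := T) (fun s _ => h1 s)
    (Continuous.intervalIntegrable (by fun_prop) _ _)
  rw [div_self hT.ne', zero_div, zero_smul, sub_zero b, sub_self, zero_mul, zero_sub, zero_sub,
    neg_one_mul, neg_neg] at h2
  rw [← intervalIntegral.integral_const_mul]
  refine h2.symm.trans_le (intervalIntegral.integral_mono_on hT.le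
    (Continuous.intervalIntegrable (by fun_prop) _ _)
    (Continuous.intervalIntegrable (by fun_prop) _ _) fun s hs => ?_)
  have h3 := Finset.single_le_sum (f := fun k => pd k g (b - s • e) ^ 2) (fun _ _ => sq_nonneg _)
    (Finset.mem_univ i)
  have h4 : fderiv ℝ g (b - s • e) e ^ 2 = pd i g (b - s • e) ^ 2 := he _
  have h5 := div_nonneg hs.1 hT.le
  have h6 := (div_le_one hT).2 hs.2
  have h7 := mul_nonneg (one_div_pos.2 hT).le ((sq_nonneg _).trans h3)
  rw [map_neg]
  generalize g (b - s • e) = x, fderiv ℝ g (b - s • e) e = y at *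
  nlinarith [mul_nonneg (sub_nonneg.2 h6) (sq_nonneg (x - y)),
    mul_nonneg h5 (add_nonneg (sq_nonneg x) (sq_nonneg y))]

theorem loc_tr (hΩ : Elasticity.SmoothDomain Ω) (hp : p ∈ frontier Ω) :
    ∃ t ∈ 𝓝[frontier Ω] p, ∃ C : ℝ≥0∞, C ≠ ⊤ ∧ ∀ g : E3 → ℝ, ContDiff ℝ ∞ g →
      ∫⁻ x in t, ENNReal.ofReal (g x ^ 2) ∂μH[2] ≤
        C * ∫⁻ x in Ω, ENNReal.ofReal (g x ^ 2 + ∑ k, pd k g x ^ 2) := by
  have ho := hΩ.isOpen
  obtain ⟨U, hU, ρ, hρ, ⟨i, hi⟩, hy⟩ := hΩ.smooth_boundary p hp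
  replace hρ : ContDiff ℝ ∞ ρ := hρ
  obtain ⟨φ, hφ⟩ : ∃ φ, φ = fderiv ℝ ρ p := ⟨_, rfl⟩
  replace hi : φ (bv i) ≠ 0 := hφ ▸ hi
  obtain ⟨e, e1, ha, e2⟩ : ∃ e : E3, ‖e‖ = 1 ∧ 0 < φ e ∧
      ∀ L : E3 →L[ℝ] ℝ, L e ^ 2 = L (bv i) ^ 2 := by
    rcases lt_or_gt_of_ne hi with h | h
    · exact ⟨-bv i, by simp [bv], by simpa using h, by simp⟩
    · exact ⟨bv i, by simp [bv], h, fun _ => rfl⟩
  obtain ⟨r, hr, hK⟩ := nhds_basis_closedBall.mem_iff.1 (inter_mem (interior_mem_nhds.2 hU)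
    ((hρ.continuous_fderiv (by simp)).continuousAt.eventually
      (closedBall_mem_nhds _ (half_pos ha))))
  have hs := closedBall_subset_closedBall (x := p) (half_le_self hr.le)
  have h0 : ∀ b ∈ frontier Ω ∩ closedBall p (r / 2), ρ b = 0 := fun b hb => le_antisymm
    (closure_minimal (fun y h => ((hy y (interior_subset h.1)).1 h.2).le)
      (isClosed_le hρ.continuous continuous_const)
      (isOpen_interior.inter_closure ⟨(hK (hs hb.2)).1, hb.1.1⟩))
    (not_lt.1 fun h => hb.1.2 (ho.interior_eq.symm ▸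
      (hy b (interior_subset (hK (hs hb.2)).1)).2 h))
  have mv : ∀ x ∈ closedBall p r, ∀ y ∈ closedBall p r,
      |ρ y - ρ x - φ (y - x)| ≤ φ e / 2 * ‖y - x‖ := fun x hx y hy =>
    (convex_closedBall p r).norm_image_sub_le_of_norm_fderiv_le' (𝕜 := ℝ) (f := ρ)
      (fun y _ => hρ.differentiable (by simp) y)
      (fun y hy => by simpa [dist_eq_norm, hφ] using (hK hy).2) hx hy
  have hin : ∀ b ∈ frontier Ω ∩ closedBall p (r / 2), ∀ s ∈ Ioc 0 (r / 2), b - s • e ∈ Ω :=
    fun b hb s h => by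
      have h1 : ‖b - s • e - b‖ = s := by
        rw [sub_sub_cancel_left, norm_neg, norm_smul, e1, mul_one, Real.norm_of_nonneg h.1.le]
      have h2 : b - s • e ∈ closedBall p r := by
        have := dist_triangle (b - s • e) b p
        rw [dist_eq_norm _ b, h1] at this
        exact mem_closedBall.2 (by linarith [mem_closedBall.1 hb.2, h.2])
      have h3 := (abs_le.1 (mv b (hs hb.2) _ h2)).2
      rw [h1, h0 b hb, sub_sub_cancel_left, map_neg, map_smul, smul_eq_mul] at h3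
      exact (hy _ (interior_subset (hK h2).1)).2 (by nlinarith [mul_pos h.1 ha])
  refine ⟨_, inter_mem_nhdsWithin _ (closedBall_mem_nhds p (half_pos hr)), ?_⟩
  have mt := (isClosed_frontier (s := Ω).inter (isClosed_closedBall (x := p) (ε := r / 2)))
    |>.measurableSet
  let K := LinearMap.ker (φ : E3 →ₗ[ℝ] ℝ)
  let π : E3 → K := fun x => ⟨x - (φ x / φ e) • e, by simp [K, ha.ne']⟩
  have hπ : Continuous π := Continuous.subtype_mk (by fun_prop) _
  have hK2 : Module.finrank ℝ K = 2 := by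
    have h1 := Module.Dual.finrank_ker_add_one_of_ne_zero (f := (φ : E3 →ₗ[ℝ] ℝ))
      fun h => hi (LinearMap.congr_fun h _)
    rw [finrank_euclideanSpace_fin] at h1
    exact Nat.succ_injective h1
  have h2 : AntilipschitzWith 2 fun x : ↥(frontier Ω ∩ closedBall p (r / 2)) => π x :=
    .of_le_mul_dist fun x y => by
      have h3 := mv _ (hs y.2.2) _ (hs x.2.2)
      rw [h0 _ x.2, h0 _ y.2, sub_zero, zero_sub, abs_neg] at h3
      have h4 := norm_add_le ((x : E3) - y - (φ (x - y) / φ e) • e) ((φ (x - y) / φ e) • e)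
      rw [sub_add_cancel, norm_smul, e1, mul_one, Real.norm_eq_abs, abs_div, abs_of_pos ha] at h4
      have h6 : |φ (x - y)| / φ e ≤ ‖(x : E3) - y‖ / 2 := by
        rw [div_le_iff₀ ha]
        linarith
      have h7 : dist (π x) (π y) = ‖(x : E3) - y - (φ (x - y) / φ e) • e‖ := by
        rw [Subtype.dist_eq, dist_eq_norm, map_sub, sub_div, sub_smul]
        congr 1
        simp only [π]
        abel
      rw [h7, Subtype.dist_eq, dist_eq_norm]
      push_cast
      linarith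
  have h3 : (μH[2].restrict (frontier Ω ∩ closedBall p (r / 2))).map π ≤
      (((2 : NNReal) : ℝ≥0∞) ^ (2 : ℝ)) • μH[2] := Measure.le_iff.2 fun A hA => by
    rw [Measure.map_apply hπ.measurable hA, Measure.restrict_apply' mt, inter_comm,
      ← Subtype.image_preimage_coe,
      isometry_subtype_coe.hausdorffMeasure_image (Or.inl (by norm_num))]
    exact h2.hausdorffMeasure_preimage_le (by norm_num) A
  have h4 : (μH[2] : Measure K).IsAddHaarMeasure := by
    have := isAddHaarMeasure_hausdorffMeasure (E := K)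
    rwa [hK2] at this
  let L : K × ℝ ≃+ E3 := ⟨⟨fun z => z.1 + z.2 • e, fun x => (π x, φ x / φ e), fun z => by
    have : φ z.1 = 0 := z.1.2
    ext <;> simp [π, this, ha.ne'], fun x => by simp [π]⟩, fun _ _ => by
      simp only [Prod.fst_add, Prod.snd_add, Submodule.coe_add]
      module⟩
  have L1 : Continuous L := by
    show Continuous fun z : K × ℝ => (z.1 : E3) + z.2 • e
    fun_prop
  have h5 := L.isAddHaarMeasure_map (μH[2].prod volume) L1 (hπ.prodMk (by fun_prop))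
  have h6 := Measure.isAddLeftInvariant_eq_smul ((μH[2].prod volume).map L) volume
  generalize Measure.addHaarScalarFactor ((μH[2].prod volume).map L) volume = c at h6
  refine ⟨ENNReal.ofReal (1 / (r / 2) + 1) * ((((2 : NNReal) : ℝ≥0∞) ^ (2 : ℝ)) * c),
    by finiteness, fun g hg => ?_⟩
  have c1 := hg.continuous
  have c3 := fun k => (pd_contDiff_infty hg k).continuous
  have n0 : ∀ x, 0 ≤ g x ^ 2 + ∑ k, pd k g x ^ 2 := fun x => by positivity
  have mh : Measurable (Ω.indicator fun x => ENNReal.ofReal (g x ^ 2 + ∑ k, pd k g x ^ 2)) :=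
    (Continuous.measurable (by fun_prop)).ennreal_ofReal.indicator ho.measurableSet
  have mk : Measurable fun z : K × ℝ => Ω.indicator
      (fun x => ENNReal.ofReal (g x ^ 2 + ∑ k, pd k g x ^ 2)) (L z) := mh.comp L1.measurable
  rw [← lintegral_indicator ho.measurableSet, mul_assoc, mul_assoc, ← smul_eq_mul (c : ℝ≥0∞),
    ← ENNReal.smul_def, ← lintegral_smul_measure, ← h6, lintegral_map mh L1.measurable,
    lintegral_prod _ mk.aemeasurable, ← smul_eq_mul (_ ^ _),
    ← lintegral_smul_measure]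
  refine le_trans ?_ (mul_le_mul_right (lintegral_mono' h3 le_rfl) _)
  rw [lintegral_map mk.lintegral_prod_right' hπ.measurable,
    ← lintegral_const_mul' _ _ ENNReal.ofReal_ne_top]
  refine setLIntegral_mono' mt fun b hb => ?_
  refine (ENNReal.ofReal_le_ofReal (one_dim (b := b) hg (half_pos hr) e2)).trans ?_
  rw [ENNReal.ofReal_mul (by positivity), intervalIntegral.integral_of_le (half_pos hr).le,
    ofReal_integral_eq_lintegral_ofReal (Continuous.integrableOn_Ioc (by fun_prop))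
      (.of_forall fun _ => n0 _),
    ← lintegral_sub_left_eq_self (μ := volume) _ (φ b / φ e)]
  refine mul_le_mul_right (le_trans (setLIntegral_mono' measurableSet_Ioc fun s h => ?_)
    (setLIntegral_le_lintegral _ _)) _
  have h7 : L (π b, φ b / φ e - s) = b - s • e := by
    show b - (φ b / φ e) • e + (φ b / φ e - s) • e = _
    module
  rw [h7, indicator_of_mem (hin b hb s h)]

theorem tr_le (hΩ : Elasticity.SmoothDomain Ω) : ∃ C ≥ (0 : ℝ), ∀ g : E3 → ℝ, ContDiff ℝ ∞ g →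
    ∫ x in frontier Ω, g x ^ 2 ∂μH[2] ≤
      C * ((∫ x in Ω, g x ^ 2) + ∑ k, ∫ x in Ω, pd k g x ^ 2) := by
  obtain ⟨C, h1, h2⟩ := (hΩ.isBounded.isCompact_closure.of_isClosed_subset isClosed_frontier
    frontier_subset_closure).induction_on (p := fun t => ∃ C : ℝ≥0∞, C ≠ ⊤ ∧ ∀ g : E3 → ℝ,
      ContDiff ℝ ∞ g → ∫⁻ x in t, ENNReal.ofReal (g x ^ 2) ∂μH[2] ≤
        C * ∫⁻ x in Ω, ENNReal.ofReal (g x ^ 2 + ∑ k, pd k g x ^ 2)) ⟨0, by simp, by simp⟩
    (fun s t h ⟨C, a, b⟩ => ⟨C, a, fun g hg => (lintegral_mono_set h).trans (b g hg)⟩)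
    (fun s t ⟨C, a, b⟩ ⟨D, c, d⟩ => ⟨C + D, ENNReal.add_ne_top.2 ⟨a, c⟩, fun g hg =>
      (lintegral_union_le _ _ _).trans ((add_le_add (b g hg) (d g hg)).trans_eq
        (add_mul _ _ _).symm)⟩) fun p hp => loc_tr hΩ hp
  refine ⟨C.toReal, ENNReal.toReal_nonneg, fun g hg => ?_⟩
  have i1 := BD.Rough.sq_int' (m0 hΩ hg)
  have i2 : ∀ k, Integrable (fun x => pd k g x ^ 2) (volume.restrict Ω) := fun k =>
    BD.Rough.sq_int' (m1 hΩ hg k)
  have i3 := integrable_finsetSum Finset.univ fun k _ => i2 k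
  have n0 : ∀ x, 0 ≤ g x ^ 2 + ∑ k, pd k g x ^ 2 := fun x => by positivity
  have h3 := h2 g hg
  rw [← ofReal_integral_eq_lintegral_ofReal (BD.Rough.sq_int' (memLp_bd hΩ hg.continuous))
    (.of_forall fun _ => sq_nonneg _), ← ofReal_integral_eq_lintegral_ofReal
      (f := fun x => g x ^ 2 + ∑ k, pd k g x ^ 2) (i1.add i3) (.of_forall n0),
    ← ENNReal.ofReal_toReal h1, ← ENNReal.ofReal_mul ENNReal.toReal_nonneg,
    ENNReal.ofReal_le_ofReal_iff (mul_nonneg ENNReal.toReal_nonneg (integral_nonneg n0)),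
    integral_add i1 i3, integral_finsetSum _ fun k _ => i2 k] at h3
  exact h3

theorem nsq {μ : Measure E3} {a c : E3 → ℝ} (ha : MemLp a 2 μ) (hc : MemLp c 2 μ) :
    dist (ha.toLp a) (hc.toLp c) ^ 2 = ∫ x, (a x - c x) ^ 2 ∂μ := by
  rw [dist_eq_norm, ← MemLp.toLp_sub, ← real_inner_self_eq_norm_sq, L2.inner_def]
  refine integral_congr_ae ((ha.sub hc).coeFn_toLp.mono fun x hx => ?_)
  simp only [hx, real_inner_self_eq_norm_sq, Real.norm_eq_abs, sq_abs, Pi.sub_apply]

theorem tr_near (hΩ : Elasticity.SmoothDomain Ω) : ∃ C > (0 : ℝ), ∀ (u : Elasticity.H1 Ω) j ε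
    (a c : E3 → ℝ), ContDiff ℝ ∞ a → ContDiff ℝ ∞ c → ∫ x in Ω, (u.val j x - a x) ^ 2 < ε / 4 →
    ∫ x in Ω, (u.val j x - c x) ^ 2 < ε / 4 →
    (∀ i, ∫ x in Ω, (u.der i j x - pd i a x) ^ 2 < ε / 4) →
    (∀ i, ∫ x in Ω, (u.der i j x - pd i c x) ^ 2 < ε / 4) →
    ∫ x in frontier Ω, (a x - c x) ^ 2 ∂μH[2] ≤ C * ε := by
  obtain ⟨C, h0, hC⟩ := tr_le hΩ
  refine ⟨4 * C + 1, by positivity, fun u j ε a c ha hc a1 c1 a2 c2 => ?_⟩
  have h1 := sq2 ((u.val_mem j).sub (m0 hΩ hc)) ((u.val_mem j).sub (m0 hΩ ha)) c1 a1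
    (c := fun x => a x - c x) fun x => by simp only [Pi.sub_apply]; ring
  have h2 := fun i => sq2 ((u.der_mem i j).sub (m1 hΩ hc i)) ((u.der_mem i j).sub (m1 hΩ ha i))
    (c2 i) (a2 i) (c := pd i fun x => a x - c x) fun x => by
      rw [show pd i _ x = _ from pd_sub ha hc i x]
      simp only [Pi.sub_apply]
      ring
  have h3 := hC _ (ha.sub hc)
  have h4 : 0 ≤ ε := (integral_nonneg fun _ => sq_nonneg _).trans h1.le
  rw [Fin.sum_univ_three] at h3
  nlinarith [mul_le_mul_of_nonneg_left (add_le_add h1.le (add_le_add (add_le_add (h2 0).le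
    (h2 1).le) (h2 2).le)) h0]

theorem trace_unique (hΩ : Elasticity.SmoothDomain Ω) {u : Elasticity.H1 Ω}
    {f f' : Fin 3 → E3 → ℝ} (h : HasTrace u f) (h' : HasTrace u f') (j : Fin 3) :
    f j =ᵐ[μH[2].restrict (frontier Ω)] f' j := by
  obtain ⟨C, h0, hC⟩ := tr_near hΩ
  have h1 : ∫ x in frontier Ω, (f j x - f' j x) ^ 2 ∂μH[2] = 0 :=
    le_antisymm (le_of_forall_gt fun ε hε => by
      have h2 : 0 < min (ε / 4 / 4) (ε / 8 / C / 4) := by positivity
      obtain ⟨φ, a1, a2, a3, a4⟩ := h.2 _ h2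
      obtain ⟨ψ, b1, b2, b3, b4⟩ := h'.2 _ h2
      have k1 := memLp_bd hΩ (ContDiff.continuous (a1 j))
      have k2 := memLp_bd hΩ (ContDiff.continuous (b1 j))
      have h3 := hC u j _ _ _ (b1 j) (a1 j) ((b2 j).trans_le (min_le_right _ _))
        ((a2 j).trans_le (min_le_right _ _)) (fun i => (b3 i j).trans_le (min_le_right _ _))
        fun i => (a3 i j).trans_le (min_le_right _ _)
      rw [mul_div_cancel₀ _ h0.ne'] at h3
      exact sq2 (((h.1 j).sub k1).sub ((h'.1 j).sub k2)) (k2.sub k1)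
        (sq2 ((h.1 j).sub k1) ((h'.1 j).sub k2) ((a4 j).trans_le (min_le_left _ _))
          ((b4 j).trans_le (min_le_left _ _)) fun _ => rfl) (h3.trans_lt (by linarith))
        fun x => by simp only [Pi.sub_apply]; ring) (integral_nonneg fun _ => sq_nonneg _)
  filter_upwards [(integral_eq_zero_iff_of_nonneg (fun _ => sq_nonneg _)
    (BD.Rough.sq_int' ((h.1 j).sub (h'.1 j)))).1 h1] with x hx
  exact sub_eq_zero.1 (pow_eq_zero_iff two_ne_zero |>.1 hx)

theorem trace_exists (hΩ : Elasticity.SmoothDomain Ω) (u : Elasticity.H1 Ω) :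
    ∃ f, HasTrace u f := by
  obtain ⟨C, h0, hC⟩ := tr_near hΩ
  choose V V1 V2 v hv using cone hΩ
  choose φ h1 _ h2 h3 using fun j => approx hΩ.isOpen hΩ.isBounded (u.val_mem j)
    (fun i => u.der_mem i j) V1 V2 v univ fun p => (hv p).mono fun n hn x hx =>
      ⟨fun _ => trivial, fun h i => sm_pd hΩ.isOpen (u.val_mem j) (u.weak i j)
        ((closedBall_subset_closedBall (le_mul_of_one_le_left (by positivity) one_le_two)).trans
          (hn x hx x h (by rw [dist_self]; positivity)))⟩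
  have k := fun j n => memLp_bd hΩ (h1 j n).continuous
  have ev := fun j ε (hε : 0 < ε) => ((h2 j).eventually_lt_const hε).and
    (eventually_all.2 fun i => (h3 j i).eventually_lt_const hε)
  choose f hf using fun j => cauchySeq_tendsto_of_complete (u := fun n => (k j n).toLp _)
    (Metric.cauchySeq_iff'.2 fun ε hε => by
      obtain ⟨N, hN⟩ := eventually_atTop.1 (ev j (ε ^ 2 / 2 / C / 4) (by positivity))
      refine ⟨N, fun n hn => lt_of_pow_lt_pow_left₀ 2 hε.le ?_⟩
      have h4 := hC u j _ _ _ (h1 j n) (h1 j N) (hN n hn).1 (hN N le_rfl).1 (hN n hn).2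
        (hN N le_rfl).2
      rw [mul_div_cancel₀ _ h0.ne'] at h4
      exact (nsq _ _).trans_lt (h4.trans_lt (half_lt_self (by positivity))))
  refine ⟨fun j => f j, fun j => Lp.memLp _, fun ε hε => ?_⟩
  have h4 : ∀ j, ∀ᶠ n in atTop, ∫ x in frontier Ω, (f j x - φ j n x) ^ 2 ∂μH[2] < ε := fun j => by
    have h5 := (((tendsto_const_nhds (x := f j)).dist (hf j)).pow 2).eventually_lt_const
      (show dist (f j) (f j) ^ 2 < ε by simpa using hε)
    refine h5.mono fun n hn => (nsq (Lp.memLp _) (k j n)).symm.trans_lt ?_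
    rwa [Lp.toLp_coeFn]
  obtain ⟨n, a, c⟩ := ((eventually_all.2 fun j => ev j ε hε).and (eventually_all.2 h4)).exists
  exact ⟨fun j => φ j n, fun j => h1 j n, fun j => (a j).1, fun i j => (a j).2 i, c⟩

end Vale.Agent.P136S
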