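import Vale.Agent.P136S.Hd
import Vale.Agent.P136S.TDefs

open Set Filter Topology MeasureTheory
open scoped ContDiff

namespace Vale.Agent.P136S

open Vale.Agent.P136.Elasticity

variable {Ω : Set E3} {lam mu lam' mu' : E3 → ℝ} {u u' F G : H1 Ω} {f g : Fin 3 → E3 → ℝ}

theorem sq2 {μ : Measure E3} {a b c : E3 → ℝ} (ha : MemLp a 2 μ) (hb : MemLp b 2 μ) {ε : ℝ}
    (h1 : ∫ x, a x ^ 2 ∂μ < ε / 4) (h2 : ∫ x, b x ^ 2 ∂μ < ε / 4) (hc : ∀ x, c x = a x - b x) :
    ∫ x, c x ^ 2 ∂μ < ε := by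
  have i1 := (P136.BD.Rough.sq_int' ha).const_mul 2
  have i2 := (P136.BD.Rough.sq_int' hb).const_mul 2
  have h3 := integral_mono (P136.BD.Rough.sq_int' (ha.sub hb)) (i1.add i2) fun x => by
    show (a x - b x) ^ 2 ≤ 2 * a x ^ 2 + 2 * b x ^ 2
    nlinarith [sq_nonneg (a x + b x)]
  simp only [Pi.add_apply, Pi.sub_apply] at h3
  rw [integral_add i1 i2, integral_const_mul, integral_const_mul] at h3
  simp only [hc]
  linarith

theorem pd_sub {a b : E3 → ℝ} (ha : Smooth a) (hb : Smooth b) (i : Fin 3) (x : E3) :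
    pd i (fun x => a x - b x) x = pd i a x - pd i b x := by
  unfold pd
  rw [fderiv_fun_sub (ContDiff.differentiable ha (by simp) x)
    (ContDiff.differentiable hb (by simp) x)]
  rfl

theorem m0 (hΩ : SmoothDomain Ω) {a : E3 → ℝ} (ha : Smooth a) : MemLp a 2 (volume.restrict Ω) :=
  P136.BD.memLp_cont hΩ.isBounded (ContDiff.continuous ha)

theorem m1 (hΩ : SmoothDomain Ω) {a : E3 → ℝ} (ha : Smooth a) (i : Fin 3) :
    MemLp (pd i a) 2 (volume.restrict Ω) := m0 hΩ (P136.pd_contDiff_infty ha i)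

theorem HasTrace.of_same (hΩ : SmoothDomain Ω) (h : HasTrace F f) (hu : SameTrace F u) :
    HasTrace u f := by
  refine ⟨h.1, fun ε hε => ?_⟩
  obtain ⟨φ, a1, a2, a3, a4⟩ := h.2 (ε / 4) (by positivity)
  obtain ⟨ψ, b1, b2, b3⟩ := hu (ε / 4) (by positivity)
  refine ⟨fun j x => φ j x - ψ j x, fun j => ContDiff.sub (a1 j) (b1 j).1, fun j =>
    sq2 ((F.val_mem j).sub (m0 hΩ (a1 j))) (((F.val_mem j).sub (u.val_mem j)).sub
      (m0 hΩ (b1 j).1)) (a2 j) (b2 j) fun x => by simp only [Pi.sub_apply]; ring, fun i j =>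
    sq2 ((F.der_mem i j).sub (m1 hΩ (a1 j) i)) (((F.der_mem i j).sub (u.der_mem i j)).sub
      (m1 hΩ (b1 j).1 i)) (a3 i j) (b3 i j) fun x => by
        simp only [Pi.sub_apply, pd_sub (a1 j) (b1 j).1]; ring, fun j => ?_⟩
  refine (setIntegral_congr_fun isClosed_frontier.measurableSet fun x hx => ?_).trans_lt
    ((a4 j).trans (by linarith))
  have : ψ j x = 0 := image_eq_zero_of_notMem_tsupport fun k =>
    hx.2 (hΩ.isOpen.interior_eq.symm ▸ (b1 j).2.2 k)
  simp only [this, sub_zero]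

theorem HasTrace.same (hΩ : SmoothDomain Ω) (h : HasTrace u f) (h' : HasTrace u' f) :
    SameTrace u u' := by
  have H := fun j => dense_zero hΩ ((u.val_mem j).sub (u'.val_mem j))
    (fun i => (u.der_mem i j).sub (u'.der_mem i j)) fun i => wd_of_trace hΩ
      ((u.val_mem j).sub (u'.val_mem j)) ((u.der_mem i j).sub (u'.der_mem i j)) fun ε hε => by
    obtain ⟨φ, a1, a2, a3, a4⟩ := h.2 (ε / 4) (by positivity)
    obtain ⟨ψ, b1, b2, b3, b4⟩ := h'.2 (ε / 4) (by positivity)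
    exact ⟨fun x => φ j x - ψ j x, ContDiff.sub (a1 j) (b1 j),
      (sq2 ((u.val_mem j).sub (m0 hΩ (a1 j))) ((u'.val_mem j).sub (m0 hΩ (b1 j))) (a2 j) (b2 j)
        fun x => by simp only [Pi.sub_apply]; ring).le,
      (sq2 ((u.der_mem i j).sub (m1 hΩ (a1 j) i)) ((u'.der_mem i j).sub (m1 hΩ (b1 j) i))
        (a3 i j) (b3 i j) fun x => by
          rw [show P136.pd i _ x = _ from pd_sub (a1 j) (b1 j) i x]
          simp only [Pi.sub_apply]; ring).le,
      (sq2 ((h.1 j).sub (memLp_bd hΩ (ContDiff.continuous (b1 j))))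
        ((h.1 j).sub (memLp_bd hΩ (ContDiff.continuous (a1 j)))) (b4 j) (a4 j)
        fun x => by simp only [Pi.sub_apply]; ring).le⟩
  choose φ h1 h2 h3 using H
  intro ε hε
  obtain ⟨n, k1, k2, k3⟩ := ((eventually_all.2 h1).and ((eventually_all.2 fun j =>
    (h2 j).eventually_lt_const hε).and (eventually_all.2 fun i => eventually_all.2 fun j =>
      (h3 j i).eventually_lt_const hε))).exists
  exact ⟨fun j => φ j n, k1, k2, k3⟩

/-- smooth fields as elements of `H¹` -/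
noncomputable def sH (hΩ : SmoothDomain Ω) (hf : ∀ j, Smooth (f j)) : H1 Ω :=
  P136.Bridge.ofH1 (P136.BD.smoothH1 hΩ.isBounded f hf)

theorem sH_trace (hΩ : SmoothDomain Ω) (hf : ∀ j, Smooth (f j)) : HasTrace (sH hΩ hf) f :=
  ⟨fun j => memLp_bd hΩ (ContDiff.continuous (hf j)), fun ε hε => ⟨f, hf,
    fun j => by show ∫ x in Ω, (f j x - f j x) ^ 2 < ε; simpa using hε,
    fun i j => by show ∫ x in Ω, (pd i (f j) x - pd i (f j) x) ^ 2 < ε; simpa using hε,
    fun j => by simpa using hε⟩⟩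

theorem form_tr (hΩ : SmoothDomain Ω) (h : Admissible Ω lam mu) (hu : WeakSol lam mu u)
    (hF : SameTrace F G) : form Ω lam mu u.der F.der = form Ω lam mu u.der G.der :=
  P136.BD.form_trace hΩ.isOpen.measurableSet hΩ.isBounded h.1.continuous h.2.1.continuous
    u.der_mem hu ((P136.Bridge.sameTrace_iff F G).1 hF)

theorem SameTrace.sy (h : SameTrace F G) : SameTrace G F := fun ε hε => by
  obtain ⟨φ, h1, h2, h3⟩ := h ε hε
  refine ⟨fun j x => -φ j x, fun j => ⟨ContDiff.neg (h1 j).1, (h1 j).2.1.neg,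
    (tsupport_neg (φ j)).trans_subset (h1 j).2.2⟩, fun j => Eq.trans_lt ?_ (h2 j),
    fun i j => Eq.trans_lt ?_ (h3 i j)⟩
  · exact congrArg _ (funext fun x => by ring)
  · exact congrArg _ (funext fun x => by simp only [pd, fderiv_fun_neg, neg_apply]; ring)

theorem traceDN_iff (hΩ : SmoothDomain Ω) (h : Admissible Ω lam mu) (hF : HasTrace F f)
    (hG : HasTrace G g) (r : ℝ) : TraceDN Ω lam mu f g r ↔ DN Ω lam mu F G r :=
  ⟨fun ⟨u, _, a, b, c, d⟩ => ⟨u, a.same hΩ hF, c, d.trans (form_tr hΩ h c (b.same hΩ hG))⟩,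
    fun ⟨u, a, b, c⟩ => ⟨u, G, hF.of_same hΩ (SameTrace.sy a), hG, b, c⟩⟩

theorem form_ext (hΩ : SmoothDomain Ω) (h : Admissible Ω lam mu) (h' : Admissible Ω lam' mu')
    (H : ∀ g : Fin 3 → E3 → ℝ, (∀ j, Smooth (g j)) → form Ω lam mu u.der (fun i j => pd i (g j)) =
      form Ω lam' mu' u'.der (fun i j => pd i (g j))) (G : H1 Ω) :
    form Ω lam mu u.der G.der = form Ω lam' mu' u'.der G.der := by
  choose φ h1 h2 using fun j => dense_scalar hΩ (G.val_mem j) (fun i => G.der_mem i j)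
    fun i => G.weak i j
  have t := fun {a b : E3 → ℝ} (h : Admissible Ω a b) (w : H1 Ω) =>
    P136.BD.form_tendsto hΩ.isOpen.measurableSet hΩ.isBounded h.1.continuous h.2.1.continuous
      (D := fun n i j => P136.pd i (φ j n)) w.der_mem G.der_mem
      (fun n i j => m1 hΩ (h1 j n) i) fun i j => h2 j i
  exact tendsto_nhds_unique ((t h u).congr fun n => H _ fun j => h1 j n) (t h' u')

/-- Smooth boundary data suffice. -/
theorem sameDN_of_smooth (hΩ : SmoothDomain Ω) (h : Admissible Ω lam mu)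
    (h' : Admissible Ω lam' mu') (H : ∀ f g : Fin 3 → E3 → ℝ, (∀ j, Smooth (f j)) →
      (∀ j, Smooth (g j)) → ∃ r, TraceDN Ω lam mu f g r ∧ TraceDN Ω lam' mu' f g r) :
    SameDN Ω lam mu lam' mu' := by
  have U := P136.H969.existsUnique_public hΩ.isOpen hΩ.isBounded h
  have U' := P136.H969.existsUnique_public hΩ.isOpen hΩ.isBounded h'
  have key : ∀ F G r r', DN Ω lam mu F G r → DN Ω lam' mu' F G r' → r = r' := by
    rintro F G _ _ ⟨u, a, b, rfl⟩ ⟨u', a', b', rfl⟩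
    refine form_ext hΩ h h' (fun g hg => ?_) G
    obtain ⟨_, w, c, d, -⟩ := (U (sH hΩ hg) F).exists
    obtain ⟨_, w', c', d', -⟩ := (U' (sH hΩ hg) F).exists
    have e := form_ext hΩ h h' (u := w) (u' := w') (fun f hf => by
      obtain ⟨r, k, k'⟩ := H g f hg hf
      rw [traceDN_iff hΩ h (sH_trace hΩ hg) (sH_trace hΩ hf)] at k
      rw [traceDN_iff hΩ h' (sH_trace hΩ hg) (sH_trace hΩ hf)] at k'
      exact ((U _ _).unique ⟨w, c, d, rfl⟩ k).trans ((U' _ _).unique k' ⟨w', c', d', rfl⟩)) F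
    exact (((form_tr hΩ h b c).symm.trans (P136.BD.form_symm _ _ _ _ _)).trans
      ((form_tr hΩ h d a).trans e)).trans (((form_tr hΩ h' d' a').symm.trans
        (P136.BD.form_symm _ _ _ _ _)).trans (form_tr hΩ h' b' c'))
  intro F G r
  obtain ⟨s, hs⟩ := (U F G).exists
  obtain ⟨s', hs'⟩ := (U' F G).exists
  exact ⟨fun k => (key F G r s' k hs').symm ▸ hs', fun k => key F G s r hs k ▸ hs⟩

theorem AdmissibleUpTo.ext' (hΩ : SmoothDomain Ω) (h : AdmissibleUpTo Ω lam mu) :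
    ∃ lam' mu', Admissible Ω lam' mu' ∧ TraceDN Ω lam' mu' = TraceDN Ω lam mu ∧
      ∀ x ∈ closure Ω, lam' x = lam x ∧ mu' x = mu x := by
  obtain ⟨L, M, a, -, c⟩ := h.ext hΩ
  refine ⟨L, M, a, ?_, c⟩
  funext f g r
  simp only [TraceDN, WeakSol, form_congr hΩ.isOpen (fun x hx => (c x hx).1) fun x hx => (c x hx).2]

theorem eq_of_smooth (hΩ : SmoothDomain Ω) (h : AdmissibleUpTo Ω lam mu)
    (h' : AdmissibleUpTo Ω lam' mu') (H : ∀ f g : Fin 3 → E3 → ℝ, (∀ j, Smooth (f j)) →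
      (∀ j, Smooth (g j)) → ∃ r, TraceDN Ω lam mu f g r ∧ TraceDN Ω lam' mu' f g r) :
    ∀ x ∈ closure Ω, lam x = lam' x ∧ mu x = mu' x := by
  obtain ⟨L₁, M₁, a₁, b₁, c₁⟩ := h.ext' hΩ
  obtain ⟨L₂, M₂, a₂, b₂, c₂⟩ := h'.ext' hΩ
  obtain ⟨e₁, d₁⟩ := P136.Rough.admissible_public hΩ.isOpen hΩ.isBounded a₁
  obtain ⟨e₂, d₂⟩ := P136.Rough.admissible_public hΩ.isOpen hΩ.isBounded a₂
  have K := P136.Rough.tangent_public (P136.Rough.smooth_tangentDomain hΩ) e₁ e₂ d₁ d₂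
    (sameDN_of_smooth hΩ a₁ a₂ (by rwa [b₁, b₂]))
  intro x hx
  rw [← (c₁ x hx).1, ← (c₁ x hx).2, ← (c₂ x hx).1, ← (c₂ x hx).2]
  exact ⟨EqOn.closure (fun y hy => (K y hy).1) a₁.1.continuous a₂.1.continuous hx,
    EqOn.closure (fun y hy => (K y hy).2) a₁.2.1.continuous a₂.2.1.continuous hx⟩

theorem traceDN_unique (hΩ : SmoothDomain Ω) (h : AdmissibleUpTo Ω lam mu) (hF : HasTrace F f)
    (hG : HasTrace G g) : ∃! r, TraceDN Ω lam mu f g r := by
  obtain ⟨L, M, a, b, -⟩ := h.ext' hΩ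
  simpa only [← b, traceDN_iff hΩ a hF hG] using
    P136.H969.existsUnique_public hΩ.isOpen hΩ.isBounded a F G

end Vale.Agent.P136S
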